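import Vale.Agent.P146.H197.Mast2

/-!
# P146: the upper bound of the relative entropy, general second regime

* `kamp_gen`: two numbers for the second regime;
* `kamp_up4`: the second regime `r T' ≤ W2 / T' ^ 2 + W3 / (T' √T')` at one time of every window.
-/

open MeasureTheory Set Filter Topology

namespace Vale.Agent.P146.H197

open Vale.Agent.P146.H317 Vale.Agent.P146.H418

/-- **The upper bound of the relative entropy**, the root equation at one `T'` of every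
window `[T / (1 + η), T]` of the first regime, and two numbers for the rest. -/
theorem kamp_gen {K A c a w η e T₂ T₃ R E1 G0 G3 E0 : ℝ} {r : ℝ → ℝ} {N : ℕ} (hA : 0 ≤ A)
    (hc : 0 < c) (hw : 0 < w) (ha : 0 ≤ a) (hη : 0 ≤ η) (hη4 : η ≤ 1 / 4) (he : 0 ≤ e)
    (hE1 : 0 ≤ E1) (hG0 : 0 ≤ G0) (hG3 : 0 ≤ G3)
    (hN : gg η (N + 1) ≤ T₂) (h23 : T₂ ≤ T₃) (h3 : T₃ ≤ 1)
    (hR : rho ((1 - η) * c) ((1 + η) * a + e) ((1 + η) * w) 0 ≤ R)
    (hr : AntitoneOn r (Ioc 0 1)) (hr0 : ∀ T ∈ Ioc (0 : ℝ) 1, 0 ≤ r T)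
    (hK : K ≤ A * (∑ l ∈ Finset.range N, (gg η l - gg η (l + 1)) * r (gg η (l + 1)) + E0))
    (h1 : ∀ T ∈ Icc (gg η (N + 1)) T₂, ∃ T' ∈ Icc (T / (1 + η)) T,
      r T' ≤ rho ((1 - η) * c) ((1 + η) * a + e) ((1 + η) * w) T' ^ 2 + E1)
    (h2 : ∫ T in T₂..T₃, r T ≤ G0) (h2' : r T₃ ≤ G3) :
    K ≤ A * (J c a w + (7 * η * (w * R + c * R ^ 3) + 3 * (η * a + e) * R ^ 2 + 3 * T₂ * E1 +
      2 * (G0 + G3) + E0)) := by
  have h1η : 0 < 1 + η := by linarith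
  have hT0 : 0 < gg η (N + 1) := gg_pos hη _
  have hT2 : 0 < T₂ := hT0.trans_le hN
  have hT3 : 0 < T₃ := hT2.trans_le h23
  have hp : 0 < rho ((1 - η) * c) ((1 + η) * a + e) ((1 + η) * w) 0 :=
    rho_pos (mul_pos (by linarith) hc) (mul_pos h1η hw)
  have hR0 : 0 < R := hp.trans_le hR
  refine hK.trans (mul_le_mul_of_nonneg_left ?_ hA)
  have k0 := grid_up hη hr hr0 N
  have k1 := up (r := r) (E := fun _ => E1) hc hw ha hη hη4 he hT0 hN (h23.trans h3) hR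
    (hr.mono fun u hu => ⟨lt_of_lt_of_le (by positivity) hu.1, hu.2.trans (h23.trans h3)⟩)
    (fun _ _ _ => le_rfl) (fun _ => hE1)
    (fun T hT => h1 T hT)
  have k2 : ∫ _T in (gg η (N + 1) / (1 + η))..T₂, E1 ≤ T₂ * E1 := by
    rw [intervalIntegral.integral_const, smul_eq_mul]
    refine mul_le_mul_of_nonneg_right ?_ hE1
    have : 0 ≤ gg η (N + 1) / (1 + η) := by positivity
    linarith
  -- the last part
  have k4 : ∫ T in T₃..1, r T ≤ G3 := by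
    have h5 := int_le_left hr hT3 h3 le_rfl
    have h7 := hr0 T₃ ⟨hT3, h3⟩
    have h8 : (1 - T₃) * r T₃ ≤ 1 * r T₃ := mul_le_mul_of_nonneg_right (by linarith) h7
    linarith
  have i1 : IntervalIntegrable r volume (gg η (N + 1)) T₂ := ii_anti hr hT0 hN (h23.trans h3)
  have i2 : IntervalIntegrable r volume T₂ T₃ := ii_anti hr hT2 h23 h3
  have i3 : IntervalIntegrable r volume T₃ 1 := ii_anti hr hT3 h3 le_rfl
  have e2 : ∫ T in (gg η (N + 1))..1, r T = (∫ T in (gg η (N + 1))..T₂, r T) +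
      (∫ T in T₂..T₃, r T) + ∫ T in T₃..1, r T := by
    rw [intervalIntegral.integral_add_adjacent_intervals i1 i2,
      intervalIntegral.integral_add_adjacent_intervals (i1.trans i2) i3]
  rw [e2] at k0
  have hJ : J c a w ≤ c * R ^ 3 / 3 + w * R := by
    refine J_le hc hw (le_trans ?_ hR)
    exact rho_mono (mul_pos (by linarith) hc) (by nlinarith) hw (by nlinarith) (by nlinarith)
  have hJ0 := J_nonneg c a w
  have hwR : 0 ≤ w * R := by positivity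
  have hcR : 0 ≤ c * R ^ 3 := by positivity
  have hG1 : 0 ≤ (η * a + e) * R ^ 2 := by positivity
  have hG2 : 0 ≤ T₂ * E1 := by positivity
  set X := w * R + c * R ^ 3 with hX
  have hX0 : 0 ≤ X := by rw [hX]; positivity
  set G := (η * a + e) * R ^ 2 with hG
  set H := T₂ * E1 with hH
  have hJX : J c a w ≤ X := by
    rw [hX]
    linarith
  have m1 : (1 + η) * ((∫ T in (gg η (N + 1))..T₂, r T) + (∫ T in T₂..T₃, r T) +
      ∫ T in T₃..1, r T) ≤ (1 + η) * (J c a w + 4 * η * X + 2 * G + 2 * H + G0 + G3) := by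
    refine mul_le_mul_of_nonneg_left ?_ (by linarith)
    have e3 : 2 * (η * a + e) * R ^ 2 = 2 * G := by rw [hG]; ring
    rw [e3] at k1
    linarith
  have m2 : (1 + η) * (J c a w + 4 * η * X + 2 * G + 2 * H + G0 + G3) ≤
      J c a w + 7 * η * X + 3 * G + 3 * H + 2 * (G0 + G3) := by
    have q1 : η * J c a w ≤ η * X := mul_le_mul_of_nonneg_left hJX hη
    have q2 : 0 ≤ η * X := mul_nonneg hη hX0
    have q3 : η * (η * X) ≤ 1 / 4 * (η * X) := mul_le_mul_of_nonneg_right hη4 q2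
    have q4 : η * G ≤ 1 / 4 * G := mul_le_mul_of_nonneg_right hη4 hG1
    have q5 : η * H ≤ 1 / 4 * H := mul_le_mul_of_nonneg_right hη4 hG2
    have q6 : η * G0 ≤ 1 / 4 * G0 := mul_le_mul_of_nonneg_right hη4 hG0
    have q7 : η * G3 ≤ 1 / 4 * G3 := mul_le_mul_of_nonneg_right hη4 hG3
    nlinarith
  have e4 : 7 * η * (w * R + c * R ^ 3) = 7 * η * X := by rw [hX]
  have e5 : 3 * (η * a + e) * R ^ 2 = 3 * G := by rw [hG]; ring
  have e6 : 3 * T₂ * E1 = 3 * H := by rw [hH]; ring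
  rw [e5, e6]
  linarith

lemma int_inv_sq {W T₂ T₃ : ℝ} (h2 : 0 < T₂) (h23 : T₂ ≤ T₃) :
    IntervalIntegrable (fun T : ℝ => W / T ^ 2) volume T₂ T₃ ∧
      ∫ T in T₂..T₃, W / T ^ 2 = W / T₂ - W / T₃ := by
  have hd : ∀ T ∈ Set.uIcc T₂ T₃, HasDerivAt (fun T : ℝ => -(W / T)) (W / T ^ 2) T := by
    intro T hT
    rw [uIcc_of_le h23] at hT
    have hT' : T ≠ 0 := (h2.trans_le hT.1).ne'
    have h4 := ((hasDerivAt_inv hT').const_mul W).neg
    refine (h4.congr_deriv ?_).congr_of_eventuallyEq (Eventually.of_forall fun s => ?_)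
    · field_simp
    · simp [div_eq_mul_inv]
  have hci : IntervalIntegrable (fun T : ℝ => W / T ^ 2) volume T₂ T₃ := by
    refine ContinuousOn.intervalIntegrable ?_
    rw [uIcc_of_le h23]
    refine continuousOn_const.div (continuousOn_pow 2) fun T hT => ?_
    exact pow_ne_zero 2 (h2.trans_le hT.1).ne'
  refine ⟨hci, ?_⟩
  rw [intervalIntegral.integral_eq_sub_of_hasDerivAt hd hci]
  ring

lemma int_inv_sqrt {W T₂ T₃ : ℝ} (h2 : 0 < T₂) (h23 : T₂ ≤ T₃) :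
    IntervalIntegrable (fun T : ℝ => W / (T * √T)) volume T₂ T₃ ∧
      ∫ T in T₂..T₃, W / (T * √T) = 2 * W / √T₂ - 2 * W / √T₃ := by
  have hd : ∀ T ∈ Set.uIcc T₂ T₃,
      HasDerivAt (fun T : ℝ => -(2 * W / √T)) (W / (T * √T)) T := by
    intro T hT
    rw [uIcc_of_le h23] at hT
    have hTp : 0 < T := h2.trans_le hT.1
    have hs : 0 < √T := Real.sqrt_pos.2 hTp
    have h4 := (((Real.hasDerivAt_sqrt hTp.ne').inv hs.ne').const_mul (2 * W)).neg
    refine (h4.congr_deriv ?_).congr_of_eventuallyEq (Eventually.of_forall fun s => ?_)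
    · have hsq : √T ^ 2 = T := Real.sq_sqrt hTp.le
      rw [hsq]
      field_simp
    · simp [div_eq_mul_inv]
  have hci : IntervalIntegrable (fun T : ℝ => W / (T * √T)) volume T₂ T₃ := by
    refine ContinuousOn.intervalIntegrable ?_
    rw [uIcc_of_le h23]
    refine continuousOn_const.div (continuousOn_id.mul Real.continuous_sqrt.continuousOn)
      fun T hT => ?_
    have hTp : 0 < T := h2.trans_le hT.1
    exact (mul_pos hTp (Real.sqrt_pos.2 hTp)).ne'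
  refine ⟨hci, ?_⟩
  rw [intervalIntegral.integral_eq_sub_of_hasDerivAt hd hci]
  ring

/-- `kamp_gen` with the second regime at one time of every window, two terms. -/
theorem kamp_up4 {K A c a w η e T₂ T₃ R E1 W2 W3 E0 : ℝ} {r : ℝ → ℝ} {N : ℕ} (hA : 0 ≤ A)
    (hc : 0 < c) (hw : 0 < w) (ha : 0 ≤ a) (hη : 0 ≤ η) (hη4 : η ≤ 1 / 4) (he : 0 ≤ e)
    (hE1 : 0 ≤ E1) (hW2 : 0 ≤ W2) (hW3 : 0 ≤ W3)
    (hN : gg η (N + 1) ≤ T₂) (h23 : T₂ ≤ T₃) (h3 : T₃ ≤ 1)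
    (hR : rho ((1 - η) * c) ((1 + η) * a + e) ((1 + η) * w) 0 ≤ R)
    (hr : AntitoneOn r (Ioc 0 1)) (hr0 : ∀ T ∈ Ioc (0 : ℝ) 1, 0 ≤ r T)
    (hK : K ≤ A * (∑ l ∈ Finset.range N, (gg η l - gg η (l + 1)) * r (gg η (l + 1)) + E0))
    (h1 : ∀ T ∈ Icc (gg η (N + 1)) T₂, ∃ T' ∈ Icc (T / (1 + η)) T,
      r T' ≤ rho ((1 - η) * c) ((1 + η) * a + e) ((1 + η) * w) T' ^ 2 + E1)
    (h2 : ∀ T ∈ Icc T₂ T₃, ∃ T' ∈ Icc (T / (1 + η)) T,
      r T' ≤ W2 / T' ^ 2 + W3 / (T' * √T')) :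
    K ≤ A * (J c a w + (7 * η * (w * R + c * R ^ 3) + 3 * (η * a + e) * R ^ 2 + 3 * T₂ * E1 +
      (4 * (W2 / T₂ + W2 / T₃ ^ 2) + 8 * (W3 / √T₂ + W3 / (T₃ * √T₃))) + E0)) := by
  have h1η : 0 < 1 + η := by linarith
  have hT0 : 0 < gg η (N + 1) := gg_pos hη _
  have hT2 : 0 < T₂ := hT0.trans_le hN
  have hT3 : 0 < T₃ := hT2.trans_le h23
  have h2' : ∀ T ∈ Icc T₂ T₃, r T ≤ 2 * W2 / T ^ 2 + 2 * W3 / (T * √T) := by
    intro T hT
    have hTp : 0 < T := hT2.trans_le hT.1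
    obtain ⟨T', hT', h⟩ := h2 T hT
    have hq : 0 < T / (1 + η) := by positivity
    have hT'p : 0 < T' := hq.trans_le hT'.1
    have hT1 : T ≤ 1 := hT.2.trans h3
    have e1 : r T ≤ r T' := hr ⟨hT'p, hT'.2.trans hT1⟩ ⟨hTp, hT1⟩ hT'.2
    have hs : 0 < √T := Real.sqrt_pos.2 hTp
    have hs' : 0 < √T' := Real.sqrt_pos.2 hT'p
    have e2 : T ≤ (1 + η) * T' := by
      have := hT'.1
      rw [div_le_iff₀ h1η] at this
      linarith
    have e4 : (1 + η) ^ 2 ≤ 2 := by nlinarith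
    refine (e1.trans h).trans (add_le_add ?_ ?_)
    · rw [div_le_div_iff₀ (by positivity) (by positivity)]
      have e3 : T ^ 2 ≤ ((1 + η) * T') ^ 2 := pow_le_pow_left₀ hTp.le e2 2
      have e5 : 0 ≤ W2 * T' ^ 2 := by positivity
      calc W2 * T ^ 2 ≤ W2 * ((1 + η) * T') ^ 2 := mul_le_mul_of_nonneg_left e3 hW2
        _ = (1 + η) ^ 2 * (W2 * T' ^ 2) := by ring
        _ ≤ 2 * (W2 * T' ^ 2) := mul_le_mul_of_nonneg_right e4 e5
        _ = 2 * W2 * T' ^ 2 := by ring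
    · rw [div_le_div_iff₀ (by positivity) (by positivity)]
      have e6 : √T ≤ (1 + η) * √T' := by
        rw [Real.sqrt_le_left (by positivity), mul_pow, Real.sq_sqrt hT'p.le]
        refine e2.trans ?_
        have : 1 + η ≤ (1 + η) ^ 2 := by nlinarith
        exact mul_le_mul_of_nonneg_right this hT'p.le
      have e7 : T * √T ≤ (1 + η) * T' * ((1 + η) * √T') :=
        mul_le_mul e2 e6 hs.le (by positivity)
      have e5 : 0 ≤ W3 * (T' * √T') := by positivity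
      calc W3 * (T * √T) ≤ W3 * ((1 + η) * T' * ((1 + η) * √T')) :=
            mul_le_mul_of_nonneg_left e7 hW3
        _ = (1 + η) ^ 2 * (W3 * (T' * √T')) := by ring
        _ ≤ 2 * (W3 * (T' * √T')) := mul_le_mul_of_nonneg_right e4 e5
        _ = 2 * W3 * (T' * √T') := by ring
  obtain ⟨i1, v1⟩ := int_inv_sq (W := 2 * W2) hT2 h23
  obtain ⟨i2, v2⟩ := int_inv_sqrt (W := 2 * W3) hT2 h23
  have hs2 : 0 < √T₂ := Real.sqrt_pos.2 hT2
  have hs3 : 0 < √T₃ := Real.sqrt_pos.2 hT3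
  have hG : ∫ T in T₂..T₃, r T ≤ 2 * W2 / T₂ + 2 * (2 * W3) / √T₂ := by
    refine (intervalIntegral.integral_mono_on h23 (ii_anti hr hT2 h23 h3) (i1.add i2)
      fun T hT => h2' T hT).trans ?_
    rw [intervalIntegral.integral_add i1 i2, v1, v2]
    have h6 : 0 ≤ 2 * W2 / T₃ := by positivity
    have h7 : 0 ≤ 2 * (2 * W3) / √T₃ := by positivity
    linarith
  have k := kamp_gen hA hc hw ha hη hη4 he hE1 (by positivity) (by positivity) hN h23 h3 hR hr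
    hr0 hK h1 hG (h2' T₃ ⟨h23, le_rfl⟩)
  refine k.trans (mul_le_mul_of_nonneg_left ?_ hA)
  have h8 : 0 ≤ W3 / (T₃ * √T₃) := by positivity
  have e1 : 2 * (2 * W2 / T₂ + 2 * (2 * W3) / √T₂ + (2 * W2 / T₃ ^ 2 + 2 * W3 / (T₃ * √T₃))) =
      4 * (W2 / T₂ + W2 / T₃ ^ 2) + 8 * (W3 / √T₂) + 4 * (W3 / (T₃ * √T₃)) := by ring
  rw [e1]
  linarith

end Vale.Agent.P146.H197
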