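import Vale.Agent.P146.H418.Mast

/-!
# P146: the two-sided formula of the relative entropy, typical times

`H418.kamp_up` and `H418.kamp_low` with the root equation at one time of every window.
-/

open MeasureTheory Set Filter Topology

namespace Vale.Agent.P146.H197

open Vale.Agent.P146.H317 Vale.Agent.P146.H418

/-- **The upper bound of the relative entropy**, the root equation at one `T'` of every
window `[T / (1 + η), T]`. -/
theorem kamp_up2 {K A c a w η e T₂ T₃ R E1 W2 E0 : ℝ} {r : ℝ → ℝ} {N : ℕ} (hA : 0 ≤ A)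
    (hc : 0 < c) (hw : 0 < w) (ha : 0 ≤ a) (hη : 0 ≤ η) (hη4 : η ≤ 1 / 4) (he : 0 ≤ e)
    (hE1 : 0 ≤ E1) (hW2 : 0 ≤ W2)
    (hN : gg η (N + 1) ≤ T₂) (h23 : T₂ ≤ T₃) (h3 : T₃ ≤ 1)
    (hR : rho ((1 - η) * c) ((1 + η) * a + e) ((1 + η) * w) 0 ≤ R)
    (hr : AntitoneOn r (Ioc 0 1)) (hr0 : ∀ T ∈ Ioc (0 : ℝ) 1, 0 ≤ r T)
    (hK : K ≤ A * (∑ l ∈ Finset.range N, (gg η l - gg η (l + 1)) * r (gg η (l + 1)) + E0))
    (h1 : ∀ T ∈ Icc (gg η (N + 1)) T₂, ∃ T' ∈ Icc (T / (1 + η)) T,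
      r T' ≤ rho ((1 - η) * c) ((1 + η) * a + e) ((1 + η) * w) T' ^ 2 + E1)
    (h2 : ∀ T ∈ Icc T₂ T₃, r T ≤ W2 / T ^ 2) :
    K ≤ A * (J c a w + (7 * η * (w * R + c * R ^ 3) + 3 * (η * a + e) * R ^ 2 + 3 * T₂ * E1 +
      2 * (W2 / T₂ + W2 / T₃ ^ 2) + E0)) := by
  have h1η : 0 < 1 + η := by linarith
  have hT0 : 0 < gg η (N + 1) := gg_pos hη _
  have hT2 : 0 < T₂ := hT0.trans_le hN
  have hT3 : 0 < T₃ := hT2.trans_le h23
  have hp : 0 < rho ((1 - η) * c) ((1 + η) * a + e) ((1 + η) * w) 0 :=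
    rho_pos (mul_pos (by linarith) hc) (mul_pos h1η hw)
  have hR0 : 0 < R := hp.trans_le hR
  refine hK.trans (mul_le_mul_of_nonneg_left ?_ hA)
  have k0 := grid_up hη hr hr0 N
  have k1 := up (r := r) (E := fun _ => E1) hc hw ha hη hη4 he hT0 hN (h23.trans h3) hR
    (hr.mono fun u hu => ⟨lt_of_lt_of_le (by positivity) hu.1, hu.2.trans (h23.trans h3)⟩)
    (fun _ _ _ => le_rfl) (fun _ => hE1)
    (fun T hT => h1 T hT)
  have k2 : ∫ _T in (gg η (N + 1) / (1 + η))..T₂, E1 ≤ T₂ * E1 := by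
    rw [intervalIntegral.integral_const, smul_eq_mul]
    refine mul_le_mul_of_nonneg_right ?_ hE1
    have : 0 ≤ gg η (N + 1) / (1 + η) := by positivity
    linarith
  -- the middle part
  have k3 : ∫ T in T₂..T₃, r T ≤ W2 / T₂ := by
    have hd : ∀ T ∈ Set.uIcc T₂ T₃, HasDerivAt (fun T : ℝ => -(W2 / T)) (W2 / T ^ 2) T := by
      intro T hT
      rw [uIcc_of_le h23] at hT
      have hT' : T ≠ 0 := (hT2.trans_le hT.1).ne'
      have h4 := ((hasDerivAt_inv hT').const_mul W2).neg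
      refine (h4.congr_deriv ?_).congr_of_eventuallyEq (Eventually.of_forall fun s => ?_)
      · field_simp
      · simp [div_eq_mul_inv]
    have hci : IntervalIntegrable (fun T : ℝ => W2 / T ^ 2) volume T₂ T₃ := by
      refine ContinuousOn.intervalIntegrable ?_
      rw [uIcc_of_le h23]
      refine continuousOn_const.div (continuousOn_pow 2) fun T hT => ?_
      exact pow_ne_zero 2 (hT2.trans_le hT.1).ne'
    have e1 : ∫ T in T₂..T₃, W2 / T ^ 2 = W2 / T₂ - W2 / T₃ := by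
      rw [intervalIntegral.integral_eq_sub_of_hasDerivAt hd hci]
      ring
    have h5 : ∫ T in T₂..T₃, r T ≤ ∫ T in T₂..T₃, W2 / T ^ 2 :=
      intervalIntegral.integral_mono_on h23 (ii_anti hr hT2 h23 h3) hci fun T hT => h2 T hT
    have h6 : 0 ≤ W2 / T₃ := by positivity
    linarith
  -- the last part
  have k4 : ∫ T in T₃..1, r T ≤ W2 / T₃ ^ 2 := by
    have h5 := int_le_left hr hT3 h3 le_rfl
    have h6 := h2 T₃ ⟨h23, le_rfl⟩
    have h7 := hr0 T₃ ⟨hT3, h3⟩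
    have h8 : (1 - T₃) * r T₃ ≤ 1 * r T₃ := mul_le_mul_of_nonneg_right (by linarith) h7
    linarith
  have i1 : IntervalIntegrable r volume (gg η (N + 1)) T₂ := ii_anti hr hT0 hN (h23.trans h3)
  have i2 : IntervalIntegrable r volume T₂ T₃ := ii_anti hr hT2 h23 h3
  have i3 : IntervalIntegrable r volume T₃ 1 := ii_anti hr hT3 h3 le_rfl
  have e2 : ∫ T in (gg η (N + 1))..1, r T = (∫ T in (gg η (N + 1))..T₂, r T) +
      (∫ T in T₂..T₃, r T) + ∫ T in T₃..1, r T := by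
    rw [intervalIntegral.integral_add_adjacent_intervals i1 i2,
      intervalIntegral.integral_add_adjacent_intervals (i1.trans i2) i3]
  rw [e2] at k0
  have hJ : J c a w ≤ c * R ^ 3 / 3 + w * R := by
    refine J_le hc hw (le_trans ?_ hR)
    exact rho_mono (mul_pos (by linarith) hc) (by nlinarith) hw (by nlinarith) (by nlinarith)
  have hJ0 := J_nonneg c a w
  have hwR : 0 ≤ w * R := by positivity
  have hcR : 0 ≤ c * R ^ 3 := by positivity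
  have hG1 : 0 ≤ (η * a + e) * R ^ 2 := by positivity
  have hG2 : 0 ≤ T₂ * E1 := by positivity
  have hW3 : 0 ≤ W2 / T₂ := by positivity
  have hW4 : 0 ≤ W2 / T₃ ^ 2 := by positivity
  set X := w * R + c * R ^ 3 with hX
  have hX0 : 0 ≤ X := by rw [hX]; positivity
  set G := (η * a + e) * R ^ 2 with hG
  set H := T₂ * E1 with hH
  set W3 := W2 / T₂ with hW3'
  set W4 := W2 / T₃ ^ 2 with hW4'
  have hJX : J c a w ≤ X := by
    rw [hX]
    linarith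
  have m1 : (1 + η) * ((∫ T in (gg η (N + 1))..T₂, r T) + (∫ T in T₂..T₃, r T) +
      ∫ T in T₃..1, r T) ≤ (1 + η) * (J c a w + 4 * η * X + 2 * G + 2 * H + W3 + W4) := by
    refine mul_le_mul_of_nonneg_left ?_ (by linarith)
    have e3 : 2 * (η * a + e) * R ^ 2 = 2 * G := by rw [hG]; ring
    rw [e3] at k1
    linarith
  have m2 : (1 + η) * (J c a w + 4 * η * X + 2 * G + 2 * H + W3 + W4) ≤
      J c a w + 7 * η * X + 3 * G + 3 * H + 2 * (W3 + W4) := by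
    have q1 : η * J c a w ≤ η * X := mul_le_mul_of_nonneg_left hJX hη
    have q2 : 0 ≤ η * X := mul_nonneg hη hX0
    have q3 : η * (η * X) ≤ 1 / 4 * (η * X) := mul_le_mul_of_nonneg_right hη4 q2
    have q4 : η * G ≤ 1 / 4 * G := mul_le_mul_of_nonneg_right hη4 hG1
    have q5 : η * H ≤ 1 / 4 * H := mul_le_mul_of_nonneg_right hη4 hG2
    have q6 : η * W3 ≤ 1 / 4 * W3 := mul_le_mul_of_nonneg_right hη4 hW3
    have q7 : η * W4 ≤ 1 / 4 * W4 := mul_le_mul_of_nonneg_right hη4 hW4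
    nlinarith
  have e4 : 7 * η * (w * R + c * R ^ 3) = 7 * η * X := by rw [hX]
  have e5 : 3 * (η * a + e) * R ^ 2 = 3 * G := by rw [hG]; ring
  have e6 : 3 * T₂ * E1 = 3 * H := by rw [hH]; ring
  rw [e5, e6]
  linarith

/-- **The lower bound of the relative entropy**, the root equation at one `T'` of every
window `[T, (1 + η) T]`. -/
theorem kamp_low2 {K A c a w η e T₂ R E1 E0 : ℝ} {r : ℝ → ℝ} {N : ℕ} (hA : 0 ≤ A)
    (hc : 0 < c) (hw : 0 < w) (ha : 0 ≤ a) (hη : 0 ≤ η) (hη4 : η ≤ 1 / 4) (he : 0 ≤ e)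
    (hE1 : 0 ≤ E1) (hN : gg η N ≤ T₂) (hT2 : (1 + η) * T₂ ≤ 1) (haT : a < T₂)
    (hR : rho c a w 0 ≤ R)
    (hr : AntitoneOn r (Ioc 0 1)) (hr0 : ∀ T ∈ Ioc (0 : ℝ) 1, 0 ≤ r T)
    (hK : A * (∑ l ∈ Finset.range (N + 1), (gg η l - gg η (l + 1)) * r (gg η l) - E0) ≤ K)
    (h1 : ∀ T ∈ Icc (gg η N) T₂, ∃ T' ∈ Icc T ((1 + η) * T),
      rho ((1 + η) * c) ((1 - η) * a - e) ((1 - η) * w) T' ^ 2 - E1 ≤ r T') :
    A * (J c a w - (5 * η * (w * R + c * R ^ 3) + 2 * (η * a + e) * R ^ 2 +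
      2 * gg η N * R ^ 2 + 2 * w ^ 2 / (T₂ - a) + T₂ * E1 + E0)) ≤ K := by
  have h1η : 0 < 1 + η := by linarith
  have hT0 : 0 < gg η N := gg_pos hη _
  have hT20 : 0 < T₂ := hT0.trans_le hN
  have hT21 : T₂ ≤ 1 := by nlinarith
  have hp : 0 < rho c a w 0 := rho_pos hc hw
  have hR0 : 0 < R := hp.trans_le hR
  refine le_trans (mul_le_mul_of_nonneg_left ?_ hA) hK
  have k0 := grid_low hη hr hr0 N
  have k1 := low (r := r) (E := fun _ => E1) hc hw ha hη hη4 he hT0 hN hT2 haT hR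
    (hr.mono fun u hu => ⟨hT0.trans_le hu.1, hu.2.trans hT2⟩)
    (fun _ _ _ => le_rfl)
    (fun T hT => h1 T hT)
  have k2 : ∫ _T in (gg η N)..T₂, E1 ≤ T₂ * E1 := by
    rw [intervalIntegral.integral_const, smul_eq_mul]
    exact mul_le_mul_of_nonneg_right (by linarith) hE1
  have i1 : IntervalIntegrable r volume (gg η N) T₂ := ii_anti hr hT0 hN hT21
  have i2 : IntervalIntegrable r volume T₂ 1 := ii_anti hr hT20 hT21 le_rfl
  have k3 : ∫ T in (gg η N)..T₂, r T ≤ ∫ T in (gg η N)..1, r T := by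
    rw [← intervalIntegral.integral_add_adjacent_intervals i1 i2]
    have : 0 ≤ ∫ T in T₂..1, r T :=
      intervalIntegral.integral_nonneg hT21 fun T hT => hr0 T ⟨hT20.trans_le hT.1, hT.2⟩
    linarith
  have hJ : J c a w ≤ c * R ^ 3 / 3 + w * R := J_le hc hw hR
  have hJ0 := J_nonneg c a w
  have hwR : 0 ≤ w * R := by positivity
  have hcR : 0 ≤ c * R ^ 3 := by positivity
  set X := w * R + c * R ^ 3 with hX
  set Y := 2 * (η * a + e) * R ^ 2 + 2 * gg η N * R ^ 2 + 2 * w ^ 2 / (T₂ - a) + T₂ * E1 with hY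
  have hY0 : 0 ≤ Y := by
    have : 0 < T₂ - a := by linarith
    rw [hY]
    positivity
  have m1 : J c a w - 4 * η * X - Y ≤ ∫ T in (gg η N)..1, r T := by
    rw [hY]
    linarith
  have m2 : (1 + η)⁻¹ * (J c a w - 4 * η * X - Y) ≤ (1 + η)⁻¹ * ∫ T in (gg η N)..1, r T :=
    mul_le_mul_of_nonneg_left m1 (inv_pos.2 h1η).le
  have hJX : J c a w ≤ X := by
    rw [hX]
    linarith
  have hX0 : 0 ≤ X := by rw [hX]; positivity
  have m3 : J c a w - 5 * η * X - Y ≤ (1 + η)⁻¹ * (J c a w - 4 * η * X - Y) := by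
    rw [inv_mul_eq_div, le_div_iff₀ h1η]
    have q1 : η * J c a w ≤ η * X := mul_le_mul_of_nonneg_left hJX hη
    have q2 : 0 ≤ η * X := mul_nonneg hη hX0
    have q3 : 0 ≤ η * (η * X) := mul_nonneg hη q2
    have q4 : 0 ≤ η * Y := mul_nonneg hη hY0
    nlinarith
  have e1 : J c a w - (5 * η * (w * R + c * R ^ 3) + 2 * (η * a + e) * R ^ 2 +
      2 * gg η N * R ^ 2 + 2 * w ^ 2 / (T₂ - a) + T₂ * E1 + E0) =
      J c a w - 5 * η * X - Y - E0 := by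
    rw [hX, hY]
    ring
  rw [e1]
  linarith

/-- `kamp_up2` with the second regime also at one time of every window. -/
theorem kamp_up3 {K A c a w η e T₂ T₃ R E1 W2 E0 : ℝ} {r : ℝ → ℝ} {N : ℕ} (hA : 0 ≤ A)
    (hc : 0 < c) (hw : 0 < w) (ha : 0 ≤ a) (hη : 0 ≤ η) (hη4 : η ≤ 1 / 4) (he : 0 ≤ e)
    (hE1 : 0 ≤ E1) (hW2 : 0 ≤ W2)
    (hN : gg η (N + 1) ≤ T₂) (h23 : T₂ ≤ T₃) (h3 : T₃ ≤ 1)
    (hR : rho ((1 - η) * c) ((1 + η) * a + e) ((1 + η) * w) 0 ≤ R)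
    (hr : AntitoneOn r (Ioc 0 1)) (hr0 : ∀ T ∈ Ioc (0 : ℝ) 1, 0 ≤ r T)
    (hK : K ≤ A * (∑ l ∈ Finset.range N, (gg η l - gg η (l + 1)) * r (gg η (l + 1)) + E0))
    (h1 : ∀ T ∈ Icc (gg η (N + 1)) T₂, ∃ T' ∈ Icc (T / (1 + η)) T,
      r T' ≤ rho ((1 - η) * c) ((1 + η) * a + e) ((1 + η) * w) T' ^ 2 + E1)
    (h2 : ∀ T ∈ Icc T₂ T₃, ∃ T' ∈ Icc (T / (1 + η)) T, r T' ≤ W2 / T' ^ 2) :
    K ≤ A * (J c a w + (7 * η * (w * R + c * R ^ 3) + 3 * (η * a + e) * R ^ 2 + 3 * T₂ * E1 +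
      4 * (W2 / T₂ + W2 / T₃ ^ 2) + E0)) := by
  have h1η : 0 < 1 + η := by linarith
  have hT0 : 0 < gg η (N + 1) := gg_pos hη _
  have h2' : ∀ T ∈ Icc T₂ T₃, r T ≤ 2 * W2 / T ^ 2 := by
    intro T hT
    have hTp : 0 < T := (hT0.trans_le hN).trans_le hT.1
    obtain ⟨T', hT', h⟩ := h2 T hT
    have hq : 0 < T / (1 + η) := by positivity
    have hT'p : 0 < T' := hq.trans_le hT'.1
    have hT1 : T ≤ 1 := hT.2.trans h3
    have e1 : r T ≤ r T' := hr ⟨hT'p, hT'.2.trans hT1⟩ ⟨hTp, hT1⟩ hT'.2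
    refine (e1.trans h).trans ?_
    rw [div_le_div_iff₀ (by positivity) (by positivity)]
    have e2 : T ≤ (1 + η) * T' := by
      have := hT'.1
      rw [div_le_iff₀ h1η] at this
      linarith
    have e3 : T ^ 2 ≤ ((1 + η) * T') ^ 2 := pow_le_pow_left₀ hTp.le e2 2
    have e4 : (1 + η) ^ 2 ≤ 2 := by nlinarith
    have e5 : 0 ≤ W2 * T' ^ 2 := by positivity
    calc W2 * T ^ 2 ≤ W2 * ((1 + η) * T') ^ 2 := mul_le_mul_of_nonneg_left e3 hW2
      _ = (1 + η) ^ 2 * (W2 * T' ^ 2) := by ring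
      _ ≤ 2 * (W2 * T' ^ 2) := mul_le_mul_of_nonneg_right e4 e5
      _ = 2 * W2 * T' ^ 2 := by ring
  have k := kamp_up2 hA hc hw ha hη hη4 he hE1 (by positivity : 0 ≤ 2 * W2) hN h23 h3 hR hr hr0
    hK h1 h2'
  refine k.trans (le_of_eq ?_)
  ring

end Vale.Agent.P146.H197
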