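import Vale.Agent.P146.H197.KUp
import Vale.Agent.P146.H197.Mast3

/-!
# P146: the upper bound of the relative entropy of one law

`H197.KUp.kup` and `H197.Mast3.kamp_gen` composed.

* `int_inv`, `mid_le`: the second regime `r T' ≤ W2 / T' ^ 2 + W3 / T'` at one time of every window;
* `kamp_up5`: `kamp_gen` with this second regime;
* `KE`: the stage terms; `kup2`: the composition, `kup_typ`: the root equation at one point
  `(T', u'', m)` of every window.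
-/

open MeasureTheory Set Filter Topology

namespace Vale.Agent.P146.H197

open Vale.Agent.P146.H317 Vale.Agent.P146.H418

lemma int_inv {W T₂ T₃ : ℝ} (h2 : 0 < T₂) (h23 : T₂ ≤ T₃) :
    IntervalIntegrable (fun T : ℝ => W / T) volume T₂ T₃ ∧
      ∫ T in T₂..T₃, W / T = W * Real.log (T₃ / T₂) := by
  have h3 : 0 < T₃ := h2.trans_le h23
  have hci : IntervalIntegrable (fun T : ℝ => W / T) volume T₂ T₃ := by
    refine ContinuousOn.intervalIntegrable ?_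
    rw [uIcc_of_le h23]
    refine continuousOn_const.div continuousOn_id fun T hT => ?_
    exact (h2.trans_le hT.1).ne'
  refine ⟨hci, ?_⟩
  have h0 : (0 : ℝ) ∉ Set.uIcc T₂ T₃ := by
    rw [uIcc_of_le h23]
    intro h
    linarith [h.1]
  have e : (fun T : ℝ => W / T) = fun T => W * T⁻¹ := funext fun T => div_eq_mul_inv _ _
  rw [e, intervalIntegral.integral_const_mul, integral_inv h0]

/-- the second regime, from one time of every window -/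
lemma mid_le {η T₂ T₃ W2 W3 : ℝ} {r : ℝ → ℝ} (hη : 0 ≤ η) (hη4 : η ≤ 1 / 4) (hT2 : 0 < T₂)
    (h23 : T₂ ≤ T₃) (h3 : T₃ ≤ 1) (hW2 : 0 ≤ W2) (hW3 : 0 ≤ W3)
    (hr : AntitoneOn r (Ioc 0 1))
    (h2 : ∀ T ∈ Icc T₂ T₃, ∃ T' ∈ Icc (T / (1 + η)) T, r T' ≤ W2 / T' ^ 2 + W3 / T') :
    (∀ T ∈ Icc T₂ T₃, r T ≤ 2 * W2 / T ^ 2 + 2 * W3 / T) ∧
      ∫ T in T₂..T₃, r T ≤ 2 * W2 / T₂ + 2 * W3 * Real.log (T₃ / T₂) := by
  have h1η : 0 < 1 + η := by linarith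
  have hT3 : 0 < T₃ := hT2.trans_le h23
  have h2' : ∀ T ∈ Icc T₂ T₃, r T ≤ 2 * W2 / T ^ 2 + 2 * W3 / T := by
    intro T hT
    have hTp : 0 < T := hT2.trans_le hT.1
    obtain ⟨T', hT', h⟩ := h2 T hT
    have hq : 0 < T / (1 + η) := by positivity
    have hT'p : 0 < T' := hq.trans_le hT'.1
    have hT1 : T ≤ 1 := hT.2.trans h3
    have e1 : r T ≤ r T' := hr ⟨hT'p, hT'.2.trans hT1⟩ ⟨hTp, hT1⟩ hT'.2
    have e2 : T ≤ (1 + η) * T' := by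
      have := hT'.1
      rw [div_le_iff₀ h1η] at this
      linarith
    have e4 : (1 + η) ^ 2 ≤ 2 := by nlinarith
    refine (e1.trans h).trans (add_le_add ?_ ?_)
    · rw [div_le_div_iff₀ (by positivity) (by positivity)]
      have e3 : T ^ 2 ≤ ((1 + η) * T') ^ 2 := pow_le_pow_left₀ hTp.le e2 2
      have e5 : 0 ≤ W2 * T' ^ 2 := by positivity
      calc W2 * T ^ 2 ≤ W2 * ((1 + η) * T') ^ 2 := mul_le_mul_of_nonneg_left e3 hW2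
        _ = (1 + η) ^ 2 * (W2 * T' ^ 2) := by ring
        _ ≤ 2 * (W2 * T' ^ 2) := mul_le_mul_of_nonneg_right e4 e5
        _ = 2 * W2 * T' ^ 2 := by ring
    · rw [div_le_div_iff₀ hT'p hTp]
      have e5 : 0 ≤ W3 * T' := by positivity
      calc W3 * T ≤ W3 * ((1 + η) * T') := mul_le_mul_of_nonneg_left e2 hW3
        _ = (1 + η) * (W3 * T') := by ring
        _ ≤ 2 * (W3 * T') := mul_le_mul_of_nonneg_right (by linarith) e5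
        _ = 2 * W3 * T' := by ring
  refine ⟨h2', ?_⟩
  obtain ⟨i1, v1⟩ := int_inv_sq (W := 2 * W2) hT2 h23
  obtain ⟨i2, v2⟩ := int_inv (W := 2 * W3) hT2 h23
  refine (intervalIntegral.integral_mono_on h23 (ii_anti hr hT2 h23 h3) (i1.add i2)
    fun T hT => h2' T hT).trans ?_
  rw [intervalIntegral.integral_add i1 i2, v1, v2]
  have h6 : 0 ≤ 2 * W2 / T₃ := by positivity
  linarith

/-- `kamp_gen` with the second regime `W2 / T ^ 2 + W3 / T`. -/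
theorem kamp_up5 {K A c a w η e T₂ T₃ R E1 W2 W3 E0 : ℝ} {r : ℝ → ℝ} {N : ℕ} (hA : 0 ≤ A)
    (hc : 0 < c) (hw : 0 < w) (ha : 0 ≤ a) (hη : 0 ≤ η) (hη4 : η ≤ 1 / 4) (he : 0 ≤ e)
    (hE1 : 0 ≤ E1) (hW2 : 0 ≤ W2) (hW3 : 0 ≤ W3)
    (hN : gg η (N + 1) ≤ T₂) (h23 : T₂ ≤ T₃) (h3 : T₃ ≤ 1)
    (hR : rho ((1 - η) * c) ((1 + η) * a + e) ((1 + η) * w) 0 ≤ R)
    (hr : AntitoneOn r (Ioc 0 1)) (hr0 : ∀ T ∈ Ioc (0 : ℝ) 1, 0 ≤ r T)
    (hK : K ≤ A * (∑ l ∈ Finset.range N, (gg η l - gg η (l + 1)) * r (gg η (l + 1)) + E0))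
    (h1 : ∀ T ∈ Icc (gg η (N + 1)) T₂, ∃ T' ∈ Icc (T / (1 + η)) T,
      r T' ≤ rho ((1 - η) * c) ((1 + η) * a + e) ((1 + η) * w) T' ^ 2 + E1)
    (h2 : ∀ T ∈ Icc T₂ T₃, ∃ T' ∈ Icc (T / (1 + η)) T, r T' ≤ W2 / T' ^ 2 + W3 / T') :
    K ≤ A * (J c a w + (7 * η * (w * R + c * R ^ 3) + 3 * (η * a + e) * R ^ 2 + 3 * T₂ * E1 +
      (4 * (W2 / T₂ + W2 / T₃ ^ 2) + 4 * W3 * (Real.log (T₃ / T₂) + 1 / T₃)) + E0)) := by
  have hT2 : 0 < T₂ := (gg_pos hη (N + 1)).trans_le hN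
  have hT3 : 0 < T₃ := hT2.trans_le h23
  obtain ⟨m1, m2⟩ := mid_le hη hη4 hT2 h23 h3 hW2 hW3 hr h2
  have hlog : 0 ≤ Real.log (T₃ / T₂) := Real.log_nonneg (by rw [le_div_iff₀ hT2]; linarith)
  have k := kamp_gen hA hc hw ha hη hη4 he hE1
    (G0 := 2 * W2 / T₂ + 2 * W3 * Real.log (T₃ / T₂)) (G3 := 2 * W2 / T₃ ^ 2 + 2 * W3 / T₃)
    (by positivity) (by positivity) hN h23 h3 hR hr hr0 hK h1 m2 (m1 T₃ ⟨h23, le_rfl⟩)
  refine k.trans (le_of_eq ?_)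
  ring

/-- the stage terms of the path -/
noncomputable def KE (L : Law) (δ u u' q0 q1 C1 X TN TN' : ℝ) : ℝ :=
  2 / L.b ^ 2 * L.vp * (u * q0 + (δ + (u' - u)) * q1 + (1 - u')) +
    2 / L.b ^ 2 * (L.s ^ 2 * (1 + L.η) ^ 2) + 2 * δ * C1 + 2 * X * Real.log (TN / TN') + TN'

lemma card_Sn' {n m : ℕ} (hm : m ≤ n) : ((Sn n m).card : ℝ) = n - m := by
  have e : (Sn n m).map Fin.valEmbedding = Finset.range (n - m) := by
    ext i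
    simp only [Sn, Finset.mem_map, Finset.mem_filter, Finset.mem_univ, true_and,
      Fin.valEmbedding_apply, Finset.mem_range]
    constructor
    · rintro ⟨j, hj, rfl⟩
      omega
    · intro h
      exact ⟨⟨i, by omega⟩, by simp only; omega, rfl⟩
  have h : (Sn n m).card = n - m := by
    rw [← Finset.card_map Fin.valEmbedding, e, Finset.card_range]
  rw [h, Nat.cast_sub hm]

lemma Sn_anti' {n m m' : ℕ} (h : m ≤ m') : Sn n m' ⊆ Sn n m := by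
  intro i hi
  simp only [Sn, Finset.mem_filter, Finset.mem_univ, true_and] at hi ⊢
  omega

section law

variable (L : Law) (hl : 0 < L.lam) (hη : 0 ≤ L.η) (hv : 0 < L.vp) (hx : 0 < L.x)
  (hb : L.b ≠ 0) (hn : 0 < L.n)
include hl hη hv hx hb hn

/-- **The upper bound of the relative entropy of one law.** -/
theorem kup2 {h u u' q0 q1 C1 X c a w e T₂ T₃ R E1 W2 W3 : ℝ} {N N' : ℕ} (S : Finset (Fin L.n))
    (hh : 0 < h) (hh4 : h ≤ 1 / 4) (h0 : 0 ≤ u) (hu : u ≤ u') (hu1 : u' ≤ 1) (hN : N ≤ N')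
    (hX0 : 0 ≤ X)
    (hq0 : L.ff S 0 u ≤ L.n * q0) (hq1 : L.ff Finset.univ (1 - gg h N) u' ≤ L.n * q1)
    (hC1 : L.rr Finset.univ (1 - gg h N) u' ≤ C1)
    (hX : ∀ T ∈ Icc (gg h N') (gg h N), T * L.rr Finset.univ (1 - T) u' ≤ X)
    (hc : 0 < c) (hw : 0 < w) (ha : 0 ≤ a) (he : 0 ≤ e) (hE1 : 0 ≤ E1) (hW2 : 0 ≤ W2)
    (hW3 : 0 ≤ W3) (hNT : gg h (N + 1) ≤ T₂) (h23 : T₂ ≤ T₃) (h3 : T₃ ≤ 1)
    (hR : rho ((1 - h) * c) ((1 + h) * a + e) ((1 + h) * w) 0 ≤ R)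
    (h1 : ∀ T ∈ Icc (gg h (N + 1)) T₂, ∃ T' ∈ Icc (T / (1 + h)) T,
      L.rr S (1 - T') u ≤ rho ((1 - h) * c) ((1 + h) * a + e) ((1 + h) * w) T' ^ 2 + E1)
    (h2 : ∀ T ∈ Icc T₂ T₃, ∃ T' ∈ Icc (T / (1 + h)) T,
      L.rr S (1 - T') u ≤ W2 / T' ^ 2 + W3 / T') :
    L.KA ≤ L.n * L.x ^ 2 * L.b ^ 2 / 4 * (J c a w + (7 * h * (w * R + c * R ^ 3) +
      3 * (h * a + e) * R ^ 2 + 3 * T₂ * E1 +
      (4 * (W2 / T₂ + W2 / T₃ ^ 2) + 4 * W3 * (Real.log (T₃ / T₂) + 1 / T₃)) +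
      KE L (((L.n : ℝ) - S.card) / L.n) u u' q0 q1 C1 X (gg h N) (gg h N'))) := by
  have hK := kup L hl hη hv hx hb hn hh (by linarith) h0 hu hu1 hN S hX0 hq0 hq1 hC1 hX
  exact kamp_up5 (r := fun T => L.rr S (1 - T) u) (by positivity) hc hw ha hh.le hh4 he hE1 hW2
    hW3 hNT h23 h3 hR (rr_anti' L hl hη hv S h0 (hu.trans hu1))
    (fun T _ => rr_nonneg L hl hη S _ _) hK h1 h2

/-- `kup2` with the root equation at one point `(T', u'', m)` of every window, `m ≤ m2`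
hidden sites and the field share `u'' ∈ [u, u1]`. -/
theorem kup_typ {h u u1 u' q0 q1 C1 X c a w e T₂ T₃ R E1 W2 W3 : ℝ} {N N' m2 : ℕ}
    (hm2 : m2 ≤ L.n)
    (hh : 0 < h) (hh4 : h ≤ 1 / 4) (h0 : 0 ≤ u) (hu : u ≤ u') (hu1 : u' ≤ 1) (hu11 : u1 ≤ 1)
    (hN : N ≤ N') (hX0 : 0 ≤ X)
    (hq0 : L.ff (Sn L.n m2) 0 u ≤ L.n * q0)
    (hq1 : L.ff Finset.univ (1 - gg h N) u' ≤ L.n * q1)
    (hC1 : L.rr Finset.univ (1 - gg h N) u' ≤ C1)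
    (hX : ∀ T ∈ Icc (gg h N') (gg h N), T * L.rr Finset.univ (1 - T) u' ≤ X)
    (hc : 0 < c) (hw : 0 < w) (ha : 0 ≤ a) (he : 0 ≤ e) (hE1 : 0 ≤ E1) (hW2 : 0 ≤ W2)
    (hW3 : 0 ≤ W3) (hNT : gg h (N + 1) ≤ T₂) (h23 : T₂ ≤ T₃) (h3 : T₃ ≤ 1)
    (hR : rho ((1 - h) * c) ((1 + h) * a + e) ((1 + h) * w) 0 ≤ R)
    (h1 : ∀ T ∈ Icc (gg h (N + 1)) T₂, ∃ T' ∈ Icc (T / (1 + h)) T, ∃ u'' ∈ Icc u u1, ∃ m ≤ m2,
      L.rr (Sn L.n m) (1 - T') u'' ≤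
        rho ((1 - h) * c) ((1 + h) * a + e) ((1 + h) * w) T' ^ 2 + E1)
    (h2 : ∀ T ∈ Icc T₂ T₃, ∃ T' ∈ Icc (T / (1 + h)) T, ∃ u'' ∈ Icc u u1, ∃ m ≤ m2,
      L.rr (Sn L.n m) (1 - T') u'' ≤ W2 / T' ^ 2 + W3 / T') :
    L.KA ≤ L.n * L.x ^ 2 * L.b ^ 2 / 4 * (J c a w + (7 * h * (w * R + c * R ^ 3) +
      3 * (h * a + e) * R ^ 2 + 3 * T₂ * E1 +
      (4 * (W2 / T₂ + W2 / T₃ ^ 2) + 4 * W3 * (Real.log (T₃ / T₂) + 1 / T₃)) +
      KE L (m2 / L.n) u u' q0 q1 C1 X (gg h N) (gg h N'))) := by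
  have hn' : (0 : ℝ) < L.n := by exact_mod_cast hn
  have hT0 : 0 < gg h (N + 1) := gg_pos hh.le _
  have key : ∀ T, gg h (N + 1) ≤ T → T ≤ 1 → ∀ T' ∈ Icc (T / (1 + h)) T, ∀ u'' ∈ Icc u u1,
      ∀ m ≤ m2, L.rr (Sn L.n m2) (1 - T') u ≤ L.rr (Sn L.n m) (1 - T') u'' := by
    intro T hT hT1 T' hT' u'' hu'' m hm
    have hTp : 0 < T := hT0.trans_le hT
    have hT'0 : 0 < T' := lt_of_lt_of_le (by positivity) hT'.1
    exact rr_mono L hl hη hv (Sn_anti' hm) (by linarith [hT'.2]) le_rfl (by linarith) h0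
      hu''.1 (hu''.2.trans hu11)
  have hcard : ((L.n : ℝ) - (Sn L.n m2).card) / L.n = m2 / L.n := by
    rw [card_Sn' hm2]
    congr 1
    ring
  have k := kup2 L hl hη hv hx hb hn (S := Sn L.n m2) (h := h) (u := u) (u' := u') (q0 := q0)
    (q1 := q1) (C1 := C1) (X := X) (c := c) (a := a) (w := w) (e := e) (T₂ := T₂) (T₃ := T₃)
    (R := R) (E1 := E1) (W2 := W2) (W3 := W3) (N := N) (N' := N') hh hh4 h0 hu hu1 hN hX0 hq0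
    hq1 hC1 hX hc hw ha he hE1 hW2 hW3 hNT h23 h3 hR ?_ ?_
  · rw [hcard] at k
    exact k
  · intro T hT
    obtain ⟨T', hT', u'', hu'', m, hm, hr⟩ := h1 T hT
    exact ⟨T', hT', (key T hT.1 (hT.2.trans (h23.trans h3)) T' hT' u'' hu'' m hm).trans hr⟩
  · intro T hT
    obtain ⟨T', hT', u'', hu'', m, hm, hr⟩ := h2 T hT
    exact ⟨T', hT', (key T (hNT.trans hT.1) (hT.2.trans h3) T' hT' u'' hu'' m hm).trans hr⟩

end law

end Vale.Agent.P146.H197
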