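import Vale.Agent.P146.H698.Kgrid
import Vale.Agent.P146.H418.Skel

/-!
# P146: the entropy path and the numbers of one law

The bounds of `H698.Kgrid` on the names of `H418.Skel`, in the form which `H418.Mast` consumes.

* `near_sum`: the near end of the grid;
* `pp_mono`, `ff_mono`, `rr_mono`, `rr_anti`: monotonicity in the revealed set and the shares;
* `kup`, `klow`: the two sides of the path.
-/

open MeasureTheory ProbabilityTheory Set

namespace Vale.Agent.P146.H197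

open Vale.Agent.P146.H418 Vale.Agent.P146.H119 Vale.Agent.P146.H347 Vale.Agent.P146.H246

/-! ### the grid -/

lemma gg_sub {η : ℝ} (hη : 0 ≤ η) (l : ℕ) : gg η l - gg η (l + 1) = η * gg η (l + 1) := by
  have h := gg_succ hη l
  linear_combination -h

/-- the number of the levels between two times -/
lemma levels_le {η : ℝ} (hη : 0 < η) (hη1 : η ≤ 1) {N N' : ℕ} (hNN : N ≤ N') :
    η * ((N' : ℝ) - N) ≤ 2 * Real.log (gg η N / gg η N') := by
  have h1 : 0 < 1 + η := by linarith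
  obtain ⟨k, rfl⟩ := Nat.exists_eq_add_of_le hNN
  have e1 : gg η N / gg η (N + k) = (1 + η) ^ k := by
    unfold gg
    rw [pow_add, inv_pow, inv_pow]
    field_simp
  rw [e1, Real.log_pow]
  have e2 : ((N + k : ℕ) : ℝ) - N = k := by
    push_cast
    ring
  rw [e2]
  have e3 : η / 2 ≤ Real.log (1 + η) := by
    have h2 := Real.one_sub_inv_le_log_of_pos h1
    refine le_trans ?_ h2
    rw [div_le_iff₀ (by norm_num : (0 : ℝ) < 2)]
    have h3 : (1 + η)⁻¹ ≤ 1 - η / 2 := by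
      rw [inv_le_iff_one_le_mul₀ h1]
      nlinarith
    linarith
  have hk : (0 : ℝ) ≤ k := Nat.cast_nonneg _
  nlinarith

/-- **The near end of the grid**: `T r(T) ≤ X` costs `2 X log`. -/
theorem near_sum {η X : ℝ} {r : ℝ → ℝ} (hη : 0 < η) (hη1 : η ≤ 1) {N N' : ℕ} (hNN : N ≤ N')
    (hX0 : 0 ≤ X) (hX : ∀ T ∈ Icc (gg η N') (gg η N), T * r T ≤ X) :
    ∑ l ∈ Finset.Ico N N', (gg η l - gg η (l + 1)) * r (gg η (l + 1)) ≤
      2 * X * Real.log (gg η N / gg η N') := by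
  have h1 : ∀ l ∈ Finset.Ico N N', (gg η l - gg η (l + 1)) * r (gg η (l + 1)) ≤ η * X := by
    intro l hl
    rw [Finset.mem_Ico] at hl
    rw [gg_sub hη.le, mul_assoc]
    refine mul_le_mul_of_nonneg_left (hX _ ⟨?_, ?_⟩) hη.le
    · exact gg_anti hη.le (by omega)
    · exact gg_anti hη.le (by omega)
  refine (Finset.sum_le_card_nsmul _ _ _ h1).trans ?_
  rw [Nat.card_Ico, nsmul_eq_mul, Nat.cast_sub hNN]
  have h2 := levels_le hη hη1 hNN
  calc ((N' : ℝ) - N) * (η * X) = (η * ((N' : ℝ) - N)) * X := by ring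
    _ ≤ (2 * Real.log (gg η N / gg η N')) * X := mul_le_mul_of_nonneg_right h2 hX0
    _ = _ := by ring

/-! ### the numbers of one law -/

section law

variable (L : Law) (hl : 0 < L.lam) (hη : 0 ≤ L.η) (hv : 0 < L.vp)
include hl hη

lemma pp_nonneg (S : Finset (Fin L.n)) (t u : ℝ) : 0 ≤ L.pp S t u := by
  rw [Law.pp_eq]
  exact H698.Q2_nonneg hl hη _ _

lemma ff_nonneg (S : Finset (Fin L.n)) (t u : ℝ) : 0 ≤ L.ff S t u := by
  rw [Law.ff_eq]
  exact H698.Q1_nonneg hl hη _ _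

lemma rr_nonneg (S : Finset (Fin L.n)) (t u : ℝ) : 0 ≤ L.rr S t u := by
  have := pp_nonneg L hl hη S t u
  unfold Law.rr
  positivity

lemma pp_le (S : Finset (Fin L.n)) (t u : ℝ) : L.pp S t u ≤ (L.n : ℝ) ^ 2 / 2 := by
  rw [Law.pp_eq]
  exact H698.Q2_le hl hη _ _

lemma rr_le_one (S : Finset (Fin L.n)) (t u : ℝ) : L.rr S t u ≤ 1 := by
  have h := pp_le L hl hη S t u
  unfold Law.rr
  rcases (sq_nonneg (L.n : ℝ)).eq_or_lt with h0 | h0
  · rw [← h0, div_zero]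
    exact zero_le_one
  · rw [div_le_one h0]
    linarith

include hv

lemma pp_mono {S S' : Finset (Fin L.n)} (hS : S ⊆ S') {t t' u u' : ℝ} (ht0 : 0 ≤ t)
    (ht : t ≤ t') (ht1 : t' ≤ 1) (hu0 : 0 ≤ u) (hu : u ≤ u') (hu1 : u' ≤ 1) :
    L.pp S t u ≤ L.pp S' t' u' :=
  H9.PPs_mono hl hη one_pos (Real.sqrt_pos.2 hv)
    (H698.sh_can L.vp ht0 (ht.trans ht1) hu0 (hu.trans hu1))
    (H698.sh_can L.vp (ht0.trans ht) ht1 (hu0.trans hu) hu1) hS ht hu

lemma ff_mono {S S' : Finset (Fin L.n)} (hS : S ⊆ S') {t t' u u' : ℝ} (ht0 : 0 ≤ t)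
    (ht : t ≤ t') (ht1 : t' ≤ 1) (hu0 : 0 ≤ u) (hu : u ≤ u') (hu1 : u' ≤ 1) :
    L.ff S t u ≤ L.ff S' t' u' :=
  H9.MMs_mono hl hη one_pos (Real.sqrt_pos.2 hv)
    (H698.sh_can L.vp ht0 (ht.trans ht1) hu0 (hu.trans hu1))
    (H698.sh_can L.vp (ht0.trans ht) ht1 (hu0.trans hu) hu1) hS ht hu

lemma rr_mono {S S' : Finset (Fin L.n)} (hS : S ⊆ S') {t t' u u' : ℝ} (ht0 : 0 ≤ t)
    (ht : t ≤ t') (ht1 : t' ≤ 1) (hu0 : 0 ≤ u) (hu : u ≤ u') (hu1 : u' ≤ 1) :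
    L.rr S t u ≤ L.rr S' t' u' := by
  have h := pp_mono L hl hη hv hS ht0 ht ht1 hu0 hu hu1
  unfold Law.rr
  gcongr

/-- the overlap decreases with the hidden share of the bonds -/
lemma rr_anti (S : Finset (Fin L.n)) {u : ℝ} (hu0 : 0 ≤ u) (hu1 : u ≤ 1) :
    AntitoneOn (fun T => L.rr S (1 - T) u) (Icc 0 1) := by
  intro T hT T' hT' h
  exact rr_mono L hl hη hv (Finset.Subset.refl S) (by linarith [hT'.2]) (by linarith)
    (by linarith [hT.1]) hu0 le_rfl hu1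

lemma rr_anti' (S : Finset (Fin L.n)) {u : ℝ} (hu0 : 0 ≤ u) (hu1 : u ≤ 1) :
    AntitoneOn (fun T => L.rr S (1 - T) u) (Ioc 0 1) :=
  (rr_anti L hl hη hv S hu0 hu1).mono fun _ h => ⟨h.1.le, h.2⟩

/-- **The path from above**, in the form of `H418.kamp_up`. -/
theorem kup (hx : 0 < L.x) (hb : L.b ≠ 0) (hn : 0 < L.n) {h u u' q0 q1 C1 X : ℝ} {N N' : ℕ}
    (hh : 0 < h) (hh1 : h ≤ 1) (h0 : 0 ≤ u) (h1 : u ≤ u') (h2 : u' ≤ 1) (hN : N ≤ N')
    (S : Finset (Fin L.n)) (hX0 : 0 ≤ X)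
    (hq0 : L.ff S 0 u ≤ L.n * q0) (hq1 : L.ff Finset.univ (1 - gg h N) u' ≤ L.n * q1)
    (hC1 : L.rr Finset.univ (1 - gg h N) u' ≤ C1)
    (hX : ∀ T ∈ Icc (gg h N') (gg h N), T * L.rr Finset.univ (1 - T) u' ≤ X) :
    L.KA ≤ L.n * L.x ^ 2 * L.b ^ 2 / 4 * (∑ l ∈ Finset.range N, (gg h l - gg h (l + 1)) *
        L.rr S (1 - gg h (l + 1)) u +
      (2 / L.b ^ 2 * L.vp * (u * q0 + (((L.n : ℝ) - S.card) / L.n + (u' - u)) * q1 + (1 - u')) +
        2 / L.b ^ 2 * (L.s ^ 2 * (1 + L.η) ^ 2) + 2 * (((L.n : ℝ) - S.card) / L.n) * C1 +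
        2 * X * Real.log (gg h N / gg h N') + gg h N')) := by
  have hK := H698.kgrid_up (n := L.n) (b := L.b) (v := L.vp) (s := L.s) (lam := L.lam)
    (η := L.η) (c := L.c) (x := L.x) (h := h) (u := u) (u' := u') (N := N) (N' := N')
    hl hη hx hv hh.le h0 h1 h2 hn hN S
  have hn' : (0 : ℝ) < L.n := by exact_mod_cast hn
  have hb2 : 0 < L.b ^ 2 := by positivity
  have cN : 0 ≤ ((L.n : ℝ) - S.card) / L.n := by
    have := Finset.card_le_univ S
    rw [Fintype.card_fin] at this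
    exact div_nonneg (sub_nonneg.2 (by exact_mod_cast this)) hn'.le
  set δ := ((L.n : ℝ) - S.card) / L.n with hδ
  have k1 : H698.ppc L.n L.b L.vp L.s L.lam L.η L.c L.x Finset.univ (1 - gg h N) u' =
      L.pp Finset.univ (1 - gg h N) u' := rfl
  have k2 : H698.ffc L.n L.b L.vp L.s L.lam L.η L.c L.x Finset.univ (1 - gg h N) u' =
      L.ff Finset.univ (1 - gg h N) u' := rfl
  have k3 : H698.ffc L.n L.b L.vp L.s L.lam L.η L.c L.x S 0 u = L.ff S 0 u := rfl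
  have k4 : H698.KAc L.n L.b L.vp L.s L.lam L.η L.c L.x = L.KA := rfl
  rw [k1, k2, k3, k4] at hK
  have k5 : ∑ l ∈ Finset.range N, (gg h l - gg h (l + 1)) *
      (2 * H698.ppc L.n L.b L.vp L.s L.lam L.η L.c L.x S (1 - gg h (l + 1)) u / (L.n : ℝ) ^ 2) =
      ∑ l ∈ Finset.range N, (gg h l - gg h (l + 1)) * L.rr S (1 - gg h (l + 1)) u := rfl
  have k6 : ∑ l ∈ Finset.Ico N N', (gg h l - gg h (l + 1)) *
      (2 * H698.ppc L.n L.b L.vp L.s L.lam L.η L.c L.x Finset.univ (1 - gg h (l + 1)) u' /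
        (L.n : ℝ) ^ 2) =
      ∑ l ∈ Finset.Ico N N', (gg h l - gg h (l + 1)) *
        (fun T => L.rr Finset.univ (1 - T) u') (gg h (l + 1)) := rfl
  rw [k5, k6] at hK
  have k7 := near_sum (r := fun T => L.rr Finset.univ (1 - T) u') hh hh1 hN hX0 hX
  refine hK.trans ?_
  set A := (L.n : ℝ) * L.x ^ 2 * L.b ^ 2 / 4 with hA
  have hA0 : 0 ≤ A := by positivity
  set Sm1 := ∑ l ∈ Finset.range N, (gg h l - gg h (l + 1)) * L.rr S (1 - gg h (l + 1)) u
  set Nr := ∑ l ∈ Finset.Ico N N', (gg h l - gg h (l + 1)) *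
        (fun T => L.rr Finset.univ (1 - T) u') (gg h (l + 1))
  set F1 := L.ff Finset.univ (1 - gg h N) u'
  set F0 := L.ff S 0 u
  have hP1 : 2 * L.pp Finset.univ (1 - gg h N) u' ≤ (L.n : ℝ) ^ 2 * C1 := by
    have h3 := hC1
    unfold Law.rr at h3
    rw [div_le_iff₀ (by positivity)] at h3
    linarith
  set P1 := L.pp Finset.univ (1 - gg h N) u'
  have hF0 : L.x ^ 2 / 2 * (u * L.vp) * F0 ≤ A * (2 / L.b ^ 2 * L.vp * (u * q0)) := by
    have : A * (2 / L.b ^ 2 * L.vp * (u * q0)) = L.x ^ 2 / 2 * (u * L.vp) * (L.n * q0) := by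
      rw [hA]
      field_simp
      ring
    rw [this]
    exact mul_le_mul_of_nonneg_left hq0 (by positivity)
  have hc1 : ((L.n : ℝ) - S.card) = L.n * δ := by
    rw [hδ]
    field_simp
  have hR : L.x ^ 2 / 2 * (L.b ^ 2 / L.n * (2 * ((L.n : ℝ) - S.card) / L.n) * P1 +
      L.vp * (((L.n : ℝ) - S.card) / L.n) * F1 + (u' - u) * L.vp * F1) ≤
      A * (2 / L.b ^ 2 * L.vp * ((δ + (u' - u)) * q1) + 2 * δ * C1) := by
    have e1 : A * (2 / L.b ^ 2 * L.vp * ((δ + (u' - u)) * q1) + 2 * δ * C1) =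
        L.x ^ 2 / 2 * (L.b ^ 2 * δ * (L.n * C1) + L.vp * δ * (L.n * q1) +
          (u' - u) * L.vp * (L.n * q1)) := by
      rw [hA]
      field_simp
      ring
    rw [e1, hc1]
    refine mul_le_mul_of_nonneg_left ?_ (by positivity)
    have e2 : L.b ^ 2 / L.n * (2 * (L.n * δ) / L.n) * P1 ≤ L.b ^ 2 * δ * (L.n * C1) := by
      have e3 : L.b ^ 2 / L.n * (2 * (L.n * δ) / L.n) * P1 = L.b ^ 2 * δ / L.n * (2 * P1) := by
        field_simp
      have e4 : L.b ^ 2 * δ * (L.n * C1) = L.b ^ 2 * δ / L.n * ((L.n : ℝ) ^ 2 * C1) := by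
        field_simp
      rw [e3, e4]
      exact mul_le_mul_of_nonneg_left hP1 (by positivity)
    have e5 : L.vp * (L.n * δ / L.n) * F1 ≤ L.vp * δ * (L.n * q1) := by
      have e6 : L.n * δ / (L.n : ℝ) = δ := by field_simp
      rw [e6]
      exact mul_le_mul_of_nonneg_left hq1 (by positivity)
    have e7 : (u' - u) * L.vp * F1 ≤ (u' - u) * L.vp * (L.n * q1) :=
      mul_le_mul_of_nonneg_left hq1 (mul_nonneg (by linarith) hv.le)
    linarith
  have hLast : L.x ^ 2 / 2 * (L.n * ((1 - u') * L.vp + L.s ^ 2 * (1 + L.η) ^ 2)) =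
      A * (2 / L.b ^ 2 * L.vp * (1 - u') + 2 / L.b ^ 2 * (L.s ^ 2 * (1 + L.η) ^ 2)) := by
    rw [hA]
    field_simp
    ring
  have hNr : A * (Nr + gg h N') ≤ A * (2 * X * Real.log (gg h N / gg h N') + gg h N') :=
    mul_le_mul_of_nonneg_left (by linarith) hA0
  have e8 : A * (Sm1 + (2 / L.b ^ 2 * L.vp * (u * q0 + (δ + (u' - u)) * q1 + (1 - u')) +
        2 / L.b ^ 2 * (L.s ^ 2 * (1 + L.η) ^ 2) + 2 * δ * C1 +
        2 * X * Real.log (gg h N / gg h N') + gg h N')) =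
      A * (2 / L.b ^ 2 * L.vp * (u * q0)) + A * Sm1 +
      A * (2 / L.b ^ 2 * L.vp * ((δ + (u' - u)) * q1) + 2 * δ * C1) +
      A * (2 * X * Real.log (gg h N / gg h N') + gg h N') +
      A * (2 / L.b ^ 2 * L.vp * (1 - u') + 2 / L.b ^ 2 * (L.s ^ 2 * (1 + L.η) ^ 2)) := by ring
  rw [e8]
  linarith

/-- **The path from below**, in the form of `H418.kamp_low`. -/
theorem klow (hx : 0 < L.x) (hn : 0 < L.n) {h u : ℝ} (hh : 0 ≤ h) (h0 : 0 ≤ u) (h1 : u ≤ 1)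
    (N : ℕ) (S : Finset (Fin L.n)) :
    L.n * L.x ^ 2 * L.b ^ 2 / 4 * (∑ l ∈ Finset.range (N + 1), (gg h l - gg h (l + 1)) *
        L.rr S (1 - gg h l) u - 0) ≤ L.KA := by
  rw [sub_zero]
  exact H698.kgrid_low (n := L.n) (b := L.b) (v := L.vp) (s := L.s) (lam := L.lam)
    (η := L.η) (c := L.c) (x := L.x) hl hη hx hv hh h0 h1 hn (N + 1) S

end law

end Vale.Agent.P146.H197
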