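import Vale.Agent.P146.H197.BrKn

/-!
# P146: exclusion of the big root on the window of the data

* `br_kw`: the fine point, any level `Lc` above the region;
* `brnE`: `H122.BRnE`.
-/

open MeasureTheory ProbabilityTheory Filter Set

namespace Vale.Agent.P146.H197.Br

open Vale.Agent.P157.Lv hiding Dep
open Vale.Agent.P146.H425 Vale.Agent.P146.H646
open Vale.Agent.P146.H325 hiding cb cf
open Vale.Agent.P146.H196 Vale.Agent.P146.H347 Vale.Agent.P146.H475 Vale.Agent.P146.H418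
  Vale.Agent.P146.H412 Vale.Agent.P146.H320 Vale.Agent.P146.H529 Vale.Agent.P146.H470
  Vale.Agent.P146.H516 Vale.Agent.P146.H615 Vale.Agent.P146.H694
open Vale.Agent.P146.H585.Num

set_option linter.all false

/-- the constant of the window -/
noncomputable def Kb (b : ℝ) : ℝ := |Real.log (CE b (30 * b ^ 3))| + |Real.log (16 * b ^ 4)| +
  |Real.log (1000 * (1 + (30 * b ^ 3) ^ 2))| + |Real.log (Crb b)| + |Real.log (1000 * b ^ 2)| +
  Real.log 1000

lemma Kb_le (b : ℝ) : Real.log (CE b (30 * b ^ 3)) ≤ Kb b ∧ Real.log (16 * b ^ 4) ≤ Kb b ∧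
    Real.log (1000 * (1 + (30 * b ^ 3) ^ 2)) ≤ Kb b ∧ Real.log (Crb b) ≤ Kb b ∧
    Real.log (1000 * b ^ 2) ≤ Kb b ∧ Real.log 1000 ≤ Kb b ∧ Real.log 16 ≤ Kb b := by
  have a1 := abs_nonneg (Real.log (CE b (30 * b ^ 3)))
  have a2 := abs_nonneg (Real.log (16 * b ^ 4))
  have a3 := abs_nonneg (Real.log (1000 * (1 + (30 * b ^ 3) ^ 2)))
  have a4 := abs_nonneg (Real.log (Crb b))
  have a5 := abs_nonneg (Real.log (1000 * b ^ 2))
  have a6 : 0 ≤ Real.log 1000 := Real.log_nonneg (by norm_num)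
  have c1 := le_abs_self (Real.log (CE b (30 * b ^ 3)))
  have c2 := le_abs_self (Real.log (16 * b ^ 4))
  have c3 := le_abs_self (Real.log (1000 * (1 + (30 * b ^ 3) ^ 2)))
  have c4 := le_abs_self (Real.log (Crb b))
  have c5 := le_abs_self (Real.log (1000 * b ^ 2))
  have c6 : Real.log 16 ≤ Real.log 1000 := Real.log_le_log (by norm_num) (by norm_num)
  unfold Kb
  refine ⟨?_, ?_, ?_, ?_, ?_, ?_, ?_⟩ <;> linarith

section kw

variable {a0 b₁ q A b : ℝ} {n : ℕ} {y V al s lam η : ℝ}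

/-- the slope -/
lemma slope_kw (h : NW a0 b₁ q A b n y V al s lam η) (hb : 1 < b) (hal : al ≤ b - 1) :
    0 ≤ (1 + al) / b ∧ (1 + al) / b ≤ 1 ∧ |rq b y al| ≤ 1 ∧ b * ((1 + al) / b) = 1 + al ∧
      1 / 2 ≤ b * ((1 + al) / b) := by
  obtain ⟨k1, k2, k3, k4, k5, k6, k7, k8⟩ := h.bd
  have hy := h.env.y0
  have hb0 : 0 < b := by linarith
  have ha := h.al_small
  have ha1 := neg_abs_le al
  have e : b * ((1 + al) / b) = 1 + al := by field_simp
  have hk0 : 0 ≤ (1 + al) / b := div_nonneg (by linarith) hb0.le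
  have hk1 : (1 + al) / b ≤ 1 := by
    rw [div_le_one hb0]
    linarith
  refine ⟨hk0, hk1, ?_, e, by rw [e]; linarith⟩
  have hyb : y * b ≤ 1 / 2 := by
    have : 0 ≤ (y * b - 1 / 2) ^ 2 := sq_nonneg _
    nlinarith
  have h1 : y ≤ (1 + al) / b := by
    rw [le_div_iff₀ hb0]
    linarith
  unfold rq
  have h2 : 0 < 1 - y := by linarith
  rw [abs_of_nonneg (div_nonneg (by linarith) h2.le), div_le_one h2]
  linarith

/-- the conditions of smallness -/
lemma small_kw (h : NW a0 b₁ q A b n y V al s lam η) (hb : 1 < b) :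
    y ^ 2 * (b ^ 2 + (V - s ^ 2)) ≤ 1 / 4 ∧ 4 * (y * b ^ 2) ≤ 1 ∧ Mo q n y 37 0 1 ≤ 1 ∧
      y ≤ Mo q n y 37 0 1 ∧ V - s ^ 2 ≤ b ^ 2 * Mo q n y 37 0 1 ∧
      (n : ℝ) ^ (-(70 * q)) * y ^ 2 / 4 ≤ 1 ∧ dl q n ≤ 1 ∧
      (n : ℝ) ^ (26 * q) * y ^ 2 = Mo q n y 26 0 2 ∧
      (n : ℝ) ^ (37 * q) * y = Mo q n y 37 0 1 := by
  obtain ⟨f1, f2, f3, f4, f5, f6, f7, f8, f9, f10, f11, f12, f13, f14⟩ := h.facts
  obtain ⟨k1, k2, k3, k4, k5, k6, k7, k8⟩ := h.bd
  obtain ⟨g1, g2, g3, g4, g5, g6, g7, g8, g9, g10⟩ := size_kw h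
  have hn := h.env.n0
  have hy := h.env.y0
  have hV := h.env.V0
  have hb0 : 0 < b := by linarith
  have c4 := log_c 4 (by norm_num)
  have d4 : 0 ≤ Real.log 4 := Real.log_nonneg (by norm_num)
  have b2 : 1 ≤ b ^ 2 := one_le_pow₀ hb.le
  have U0 : 0 < Mo q n y 37 0 1 := Mo_pos _ _ _
  have hs2 := sq_nonneg s
  refine ⟨?_, ?_, ?_, ?_, ?_, ?_, ?_, ?_, ?_⟩
  · have h1 : y ^ 2 * (V - s ^ 2) ≤ 1 * (1 / 1000) := by
      refine mul_le_mul ?_ (by linarith) (by linarith) (by norm_num)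
      exact pow_le_one₀ hy.le (by linarith)
    linarith [show y ^ 2 * (b ^ 2 + (V - s ^ 2)) = y ^ 2 * b ^ 2 + y ^ 2 * (V - s ^ 2) by ring]
  · refine le_of_log (by positivity) (by positivity) ?_
    simp (disch := positivity) only [Real.log_mul, Real.log_pow, Real.log_one]
    push_cast
    linarith
  · unfold H585.Num.Mo
    rw [Real.exp_le_one_iff]
    linarith
  · refine g3.trans (Mo_le ?_)
    linarith
  · refine g5.trans ((show Mo q n y (-23) 0 3 ≤ Mo q n y 37 0 1 from Mo_le (by linarith)).trans ?_)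
    exact le_mul_of_one_le_left U0.le b2
  · refine le_of_log (by positivity) (by positivity) ?_
    simp (disch := positivity) only [Real.log_div, Real.log_mul, Real.log_rpow, Real.log_pow,
      Real.log_one]
    push_cast
    linarith
  · unfold dl
    refine le_of_log (by positivity) (by positivity) ?_
    simp (disch := positivity) only [Real.log_rpow, Real.log_one]
    linarith
  · rw [Mo_rpow (y := y) hn 26, Mo_ypow (q := q) (n := n) hy 2, Mo_mul]
    congr 1 <;> norm_num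
  · calc (n : ℝ) ^ (37 * q) * y = Mo q n y 37 0 0 * Mo q n y 0 0 1 := by
          rw [Mo_rpow (y := y) hn 37, ← Mo_y hy]
      _ = _ := by
          rw [Mo_mul]
          norm_num

/-- the linear coefficient -/
lemma tauabs_kw (h : NW a0 b₁ q A b n y V al s lam η) {m : ℕ} (hm : m ≤ mm q n y) {t : ℝ}
    (ht0 : 1 - (n : ℝ) ^ (-(70 * q)) * y ^ 2 / 4 ≤ t) (ht1 : t ≤ 1) :
    |tauL (lawOf n b y V al s lam η) ((1 + al) / b) m t| ≤ (n : ℝ) ^ (26 * q) * y ^ 2 := by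
  have hb := h.b0
  have hn := h.env.n0
  have hy := h.env.y0
  have e : tauL (lawOf n b y V al s lam η) ((1 + al) / b) m t =
      (n : ℝ) / (n - m) - (1 + al) ^ 2 * t := by
    show (n : ℝ) / (n - m) - ((1 + al) / b) ^ 2 * b ^ 2 * t = _
    rw [div_pow, div_mul_cancel₀ _ (by positivity)]
  obtain ⟨d0, d1, d2⟩ := share_kw h hm
  obtain ⟨p1, p2, p3, p4, p5, p6⟩ := tau_num h
  have a1 := le_abs_self al
  have a2 := h.al_abs
  have Z0 : 0 ≤ (n : ℝ) ^ (26 * q) * y ^ 2 := by positivity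
  have Y0 : 0 ≤ (n : ℝ) ^ (25 * q) * y ^ 2 := by positivity
  have p7 : 0 ≤ ((n : ℝ) ^ (25 * q) * y ^ 2) ^ 2 := by positivity
  rw [e]
  exact (tau_alg (W := (n : ℝ) ^ (26 * q) * y ^ 2 + 2 * ((n : ℝ) ^ (25 * q) * y ^ 2) ^ 2) d1 d2
    (by linarith) ht0 ht1 (by positivity) a2 h.al_small p1 p2 p3 (by linarith)
    (by linarith)).1

end kw

end Vale.Agent.P146.H197.Br
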