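import Vale.Agent.P146.H197.BrKe

/-!
# P146: exclusion of the big root on the window of the data

* `br_kw`: the fine point, any level `Lc` above the region;
* `brnE`: `H122.BRnE`.
-/

open MeasureTheory ProbabilityTheory Filter Set

namespace Vale.Agent.P146.H197.Br

open Vale.Agent.P157.Lv hiding Dep
open Vale.Agent.P146.H425 Vale.Agent.P146.H646
open Vale.Agent.P146.H325 hiding cb cf
open Vale.Agent.P146.H196 Vale.Agent.P146.H347 Vale.Agent.P146.H475 Vale.Agent.P146.H418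
  Vale.Agent.P146.H412 Vale.Agent.P146.H320 Vale.Agent.P146.H470
  Vale.Agent.P146.H516 Vale.Agent.P146.H615 Vale.Agent.P146.H694
open Vale.Agent.P146.H585.Num

set_option linter.all false

section kw

variable {a0 b₁ q A b : ℝ} {n : ℕ} {y V al s lam η : ℝ}

/-- **Exclusion of the big root at a fine point**, any level `Lc` with the region condition. -/
theorem br_kw (h : NW a0 b₁ q A b n y V al s lam η)
    (hap : ∀ T, 0 < T → T ≤ 1 → ∀ u ∈ Icc (0 : ℝ) 1, ApN q 2 (lawOf n b y V al s lam η) T u)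
    (hb : 1 < b) (hb₁ : 10000 * q ≤ b₁) (hK : Kb b ≤ q / 100 * Real.log n) (hal : al ≤ b - 1)
    {Lc τn : ℝ} (hL : Mo q n y (-9) 0 1 ≤ Lc) (hτn0 : 0 ≤ τn)
    (hτn : ∀ m ≤ mm q n y, ∀ t, 1 - (n : ℝ) ^ (-(70 * q)) * y ^ 2 / 4 ≤ t → t ≤ 1 →
      -tauL (lawOf n b y V al s lam η) ((1 + al) / b) m t ≤ τn)
    (hreg : 2 * τn * ((1 - Mo q n y (-200) 0 0) * Lc) + 3 * (((1 + al) / b) ^ 2 * (V - s ^ 2)) ≤
      y * ((1 + al) / b) ^ 3 * b ^ 4 * ((1 - Mo q n y (-200) 0 0) * Lc) ^ 2) :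
    ∃ t ∈ Icc (1 - (n : ℝ) ^ (-(70 * q)) * y ^ 2 / 4)
        (1 - 3 * ((n : ℝ) ^ (-(70 * q)) * y ^ 2) / 16),
      ∃ u ∈ Icc (1 - dl q n) (1 - dl q n / 2), ∃ m ∈ Finset.Icc (mm q n y / 4) (mm q n y / 2),
        (lawOf n b y V al s lam η).ex' t u
          (H762.big Lc ((lawOf n b y V al s lam η).Q (Sn n m) t u)) ≤ Mo q n y (-1040) 0 0 := by
  have hn := h.env.n0
  have hy := h.env.y0
  have hb0 : 0 < b := by linarith
  have w := w6_of h hb₁ hK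
  obtain ⟨K1, K2, K3, K4, K5, K6, K7⟩ := Kb_le b
  obtain ⟨k1, k2, k3, k4, k5, k6, k7, k8⟩ := h.bd
  obtain ⟨hA, a1, a2⟩ := h.adm
  obtain ⟨r1, r2, r3, r4⟩ := sites_kw h
  obtain ⟨s1, s2, s3, s4, s5⟩ := slope_kw h hb hal
  obtain ⟨v1, v2, v3, v4, v5, v6, v7, v8, v9⟩ := small_kw h hb
  obtain ⟨g1, g2, g3, g4, g5, g6, g7, g8, g9, g10⟩ := size_kw h
  have hN := nums_kw h hap
  have hC := tailC_kw h hap
  rw [v9] at hN hC
  have hj := jN_kw h
  have hh := hh_kw h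
  have hk := kN_kw h
  have hk4 := k4N_kw h
  have c1 : (1000 : ℝ) ≤ Mo q n y (1 / 100) 0 0 := const_le (by norm_num) K6 hK
  have L0 : 0 < Lc := (Mo_pos _ _ _).trans_le hL
  have ξ0 : 0 < Mo q n y (-200) 0 0 := Mo_pos _ _ _
  have hξ : Mo q n y (-200) 0 0 ≤ 1 / 2 := by
    have e0 : Mo q n y 0 0 0 = 1 := by
      unfold H585.Num.Mo
      simp
    have := big_Mo (a := -200) (c := 0) (d := 0) (a' := 0) (c' := 0) (d' := 0) c1
      (by linarith [w.qL])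
    rw [e0] at this
    linarith
  have hηξ : 16 * η ≤ Mo q n y (-200) 0 0 := by
    have := big_Mo (a := -2000) (c := 0) (d := 0) (a' := -200) (c' := 0) (d' := 0) c1
      (by linarith [w.qL])
    linarith [h.kw.η0]
  have X0 : 0 < (n : ℝ) ^ (-(70 * q)) * y ^ 2 := by positivity
  have d0 : 0 < dl q n := Real.rpow_pos_of_pos hn _
  have eu : (1 - dl q n / 2) - (1 - dl q n) = dl q n / 2 := by ring
  have hm2 : mm q n y / 2 ≤ mm q n y := Nat.div_le_self _ _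
  have hm12 : mm q n y / 4 ≤ mm q n y / 2 := by omega
  have hhh0 : 0 ≤ 1 / √((mm q n y / 4 : ℕ) : ℝ) := by positivity
  have hg0 : 0 ≤ lam / (s ^ 2 * n) := by
    have := h.kw.l0
    positivity
  have hk0 : 0 ≤ kN (lawOf n b y V al s lam η) (Mo q n y 37 0 1) (dl q n / 2) :=
    Real.sqrt_nonneg _
  have hj0 : 0 ≤ jN (mm q n y / 4) (mm q n y / 2) := Real.sqrt_nonneg _
  have U0 : 0 < Mo q n y 37 0 1 := Mo_pos _ _ _
  have hk40 : 0 ≤ C3Amp.k4N (lawOf n b y V al s lam η) (Mo q n y 37 0 1)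
      ((n : ℝ) ^ (-(70 * q)) * y ^ 2 / 16) := by
    unfold C3Amp.k4N
    show 0 ≤ 14 * Mo q n y 37 0 1 ^ 2 / ((n : ℝ) * y ^ 2 * b ^ 2 *
      ((n : ℝ) ^ (-(70 * q)) * y ^ 2 / 16))
    positivity
  have hp0 : 0 ≤ (n : ℝ) ^ (-1 : ℝ) := by positivity
  have hpR0 : 0 ≤ (n : ℝ) ^ (-2 : ℝ) := by positivity
  have hvp0 : 0 ≤ V - s ^ 2 := hA.vp0.le
  have key := C3Amp.br_n3r (L := lawOf n b y V al s lam η) hA h.kw.η0
    (show η ≤ 1 / 2 by linarith) h.kw.s0.ne' hy (show y < 1 by linarith)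
    (r0 := rq b y al) (kp := (1 + al) / b) (kp_eq h)
    (by
      have e1 := H317.cc_rq (n := n) (b := b) (V := V) (al := al) (s := s) (lam := lam) (η := η)
        (show y < 1 by linarith)
      rw [kp_eq h]
      exact e1) s1 s2 s3 hb.le v1 v2
    (m1 := mm q n y / 4) (m2 := mm q n y / 2) (by omega) hm12 r2
    (q0 := 1 - (n : ℝ) ^ (-(70 * q)) * y ^ 2 / 4)
    (q1 := 1 - 3 * ((n : ℝ) ^ (-(70 * q)) * y ^ 2) / 16)
    (p0 := 1 - (n : ℝ) ^ (-(70 * q)) * y ^ 2 / 8)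
    (p1 := 1 - (n : ℝ) ^ (-(70 * q)) * y ^ 2 / 16)
    (u0 := 1 - dl q n) (u1 := 1 - dl q n / 2)
    (by linarith) (by linarith) (by linarith) (by linarith) (by linarith) (by linarith)
    (dt := (n : ℝ) ^ (-(70 * q)) * y ^ 2 / 16) (by positivity) (by linarith) (by linarith)
    (U := Mo q n y 37 0 1) (g := lam / (s ^ 2 * n)) (p := (n : ℝ) ^ (-1 : ℝ))
    (δ := Mo q n y (-1390) 0 3) (T := (n : ℝ) ^ (-(70 * q)) * y ^ 2 / 4)
    (ee := Mo q n y (-1483) 0 0) (e1 := Mo q n y (-2999) 0 (-1)) (e2 := Mo q n y (-2962) 0 0)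
    (pR := (n : ℝ) ^ (-2 : ℝ)) (pC := (n : ℝ) ^ (-2 : ℝ)) (R3 := Mo q n y (-1366) 0 3)
    (ξ := Mo q n y (-200) 0 0) (ηt := Mo q n y (-157) 0 1) (Lc := Lc)
    (γ := Mo q n y (-146) 0 0) (τm := Mo q n y 26 0 2) (τn := τn) (e := Mo q n y (-1365) 0 3)
    U0 v3 v4 (by linarith) v5
    (fun m hm t ht => by
      have := tauabs_kw h ((Finset.mem_Icc.1 hm).2.trans hm2) ht.1 (by linarith [ht.2])
      rwa [v8] at this)
    (by
      rw [Mo_pow]
      refine Mo_le ?_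
      push_cast
      linarith [w.qL])
    (fun m hm t ht => hτn m ((Finset.mem_Icc.1 hm).2.trans hm2) t ht.1 (by linarith [ht.2]))
    hτn0 le_rfl hp0 (Mo_pos _ _ _) hN hC (Mo_pos _ _ _)
    (by
      have e0 : Mo q n y 0 0 0 = 1 := by
        unfold H585.Num.Mo
        simp
      rw [← e0]
      exact Mo_le (by linarith [w.qL]))
    (Mo_pos _ _ _) (Mo_pos _ _ _)
    (fun t ht wf hwf0 hwfv hwfU => by
      rw [eu]
      exact rbc_core w hb.le K4 K5 h.kw.η0.le (show η ≤ 1 / 2 by linarith) g2 hy.le g3 s1 s2 hwf0 hvp0 hwfv g5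
        (by linarith [ht.2]) (by linarith [ht.1]) hhh0 hh hg0 g1 hk0 hk hj0 hj hk40 hk4 hp0 g7
        hpR0 g8 hpR0 g8)
    L0 hηξ hξ (Mo_pos _ _ _) hreg (Mo_pos _ _ _)
    (gap_core w hb.le K2 s5 s1 s2 hy.le g3 (by linarith) (Mo_pos _ _ _).le le_rfl hL)
    (Mo_pos _ _ _).le
    (by
      rw [eu]
      exact e1n_core w hb.le K1 K7 U0.le le_rfl hhh0 hh hg0 g1 hvp0 g5 h.kw.η0.le g2 hy.le g3
        hk0 hk hp0 g7 hj0 hj (by positivity) g6 hpR0 g9 le_rfl)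
  obtain ⟨t, ht, u, hu, m, hm, hp⟩ := key
  rw [eu] at hp
  exact ⟨t, ht, u, hu, m, hm, hp.trans (pbn_core w (by positivity) K3 hk0 hk hpR0 g9 hL)⟩

/-- the region at the level of K6 -/
lemma region_kw (h : NW a0 b₁ q A b n y V al s lam η) (hb : 1 < b) (hb₁ : 10000 * q ≤ b₁)
    (hK : Kb b ≤ q / 100 * Real.log n) (hal : al ≤ b - 1) :
    2 * ((n : ℝ) ^ (-(99 / 10 * q)) * y ^ 2) *
      ((1 - Mo q n y (-200) 0 0) * ((n : ℝ) ^ (-(8 * q)) * y / 2)) +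
        3 * (((1 + al) / b) ^ 2 * (V - s ^ 2)) ≤
      y * ((1 + al) / b) ^ 3 * b ^ 4 *
        ((1 - Mo q n y (-200) 0 0) * ((n : ℝ) ^ (-(8 * q)) * y / 2)) ^ 2 ∧
      Mo q n y (-9) 0 1 ≤ (n : ℝ) ^ (-(8 * q)) * y / 2 := by
  obtain ⟨f1, f2, f3, f4, f5, f6, f7, f8, f9, f10, f11, f12, f13, f14⟩ := h.facts
  have hn := h.env.n0
  have hy := h.env.y0
  have w := w6_of h hb₁ hK
  obtain ⟨K1, K2, K3, K4, K5, K6, K7⟩ := Kb_le b
  obtain ⟨hA, a1, a2⟩ := h.adm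
  obtain ⟨s1, s2, s3, s4, s5⟩ := slope_kw h hb hal
  obtain ⟨g1, g2, g3, g4, g5, g6, g7, g8, g9, g10⟩ := size_kw h
  have c1 : (1000 : ℝ) ≤ Mo q n y (1 / 100) 0 0 := const_le (by norm_num) K6 hK
  have c2 := log_c 2 (by norm_num)
  have hξ : Mo q n y (-200) 0 0 ≤ 1 / 2 := by
    have e0 : Mo q n y 0 0 0 = 1 := by
      unfold H585.Num.Mo
      simp
    have := big_Mo (a := -200) (c := 0) (d := 0) (a' := 0) (c' := 0) (d' := 0) c1
      (by linarith [w.qL])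
    rw [e0] at this
    linarith
  refine ⟨reg_core w hb.le K6 s5 s1 s2 g4 hA.vp0.le g5 (Mo_pos _ _ _).le hξ (by positivity)
    (le_Mo (by positivity) ?_) (Mo_le_of (by positivity) ?_) (le_Mo (by positivity) ?_),
    Mo_le_of (by positivity) ?_⟩ <;>
  · simp (disch := positivity) only [Real.log_div, Real.log_mul, Real.log_rpow, Real.log_pow]
    push_cast
    linarith [Real.log_nonneg (show (1 : ℝ) ≤ 2 by norm_num)]

end kw

/-- **The number of the big overlaps, eventually.** -/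
theorem brnE {a0 b₁ q A b : ℝ} (hq : 0 < q) (hb : 1 < b) (hA : 1 ≤ A) (ha0 : a0 ≤ 1 / 6)
    (hb₁ : 10000 * q ≤ b₁) : H122.BRnE a0 b₁ q A b := by
  have hθ : 0 < q / 100 := by positivity
  have hb0 : 0 < b := by linarith
  have hqb : 100 * q < b₁ := by linarith
  filter_upwards [apn_ev (a0 := a0) (b₁ := b₁) (A := A) 2 hq hb0 hA ha0 hqb,
    H762.coarse_kwB (a0 := a0) (b₁ := b₁) (A := A) hq hb0 hA ha0 hqb, ev_log hθ (Kb b),
    ev_log hθ |Real.log (b - 1)|] with n g1 g2 g3 g4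
  intro y V al s lam η hkw hal T hT u hu m hm
  obtain ⟨h, hap⟩ := g1 y V al s lam η hkw
  obtain ⟨f1, f2, f3, f4, f5, f6, f7, f8, f9, f10, f11, f12, f13, f14⟩ := h.facts
  have hn := h.env.n0
  have hy := h.env.y0
  have hA0 : 0 < A := by linarith
  have d0 : 0 < dl q n := Real.rpow_pos_of_pos hn _
  have X0 : 0 < (n : ℝ) ^ (-(70 * q)) * y ^ 2 := by positivity
  have hal1 : al ≤ b - 1 := by
    refine hal.trans (le_of_log (by positivity) (by linarith) ?_)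
    have := neg_abs_le (Real.log (b - 1))
    simp (disch := positivity) only [Real.log_mul, Real.log_rpow, Real.log_pow]
    push_cast
    linarith
  obtain ⟨hreg, hL⟩ := region_kw h hb hb₁ g3 hal1
  obtain ⟨t, ht, u', hu', m', hm', hp⟩ := br_kw h hap hb hb₁ g3 hal1 hL (by positivity)
    (fun m hm t ht0 ht1 => (tau_kw h hal hm ht0 ht1).2) hreg
  obtain ⟨r1, r2, r3, r4⟩ := sites_kw h
  have hT1 : (n : ℝ) ^ (-(70 * q)) * y ^ 2 / 4 ≤ T := hT.1
  have hu1 : u ≤ 1 - dl q n := hu.2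
  have hmm : mm q n y ≤ m + 1 := hm
  have hm2 := (Finset.mem_Icc.1 hm').2
  have e1 : (Mo q n y (-1040) 0 0) = (n : ℝ) ^ (-(1040 * q)) := by
    rw [← Mo_rpow hn]
    congr 1
    ring
  rw [e1] at hp
  have key := g2 y V al s lam η hkw T (1 - t) u u' 1040 m m' (by linarith [ht.2])
    (by linarith [ht.1]) hT.2 (by omega) hu.1 (hu1.trans hu'.1) (by linarith [hu'.2])
  rw [show 1 - (1 - t) = t by ring] at key
  refine (key hp).trans ?_
  refine Real.rpow_le_rpow_of_exponent_le (by exact_mod_cast h.kw.n1.le) ?_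
  linarith

end Vale.Agent.P146.H197.Br
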