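import Vale.Agent.P146.H585.K6Num
import Vale.Agent.P146.H498.D3r

/-!
# P146: the third order number of the exclusion of the big root on the window

* `le_Mo`, `Mo_le_of`: comparison with a monomial through logarithms;
* `rbc_core`: the number `RBc`.
-/

namespace Vale.Agent.P146.H197.Br

open Vale.Agent.P146.H585.Num Vale.Agent.P146.C3Amp

set_option linter.all false

variable {q K : ℝ} {n : ℕ} {y : ℝ}

lemma log_Mo (a c d : ℝ) : Real.log (Mo q n y a c d) =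
    a * (q * Real.log n) + c * Real.log n + d * Real.log y := Real.log_exp _

lemma le_Mo {x a c d : ℝ} (hx : 0 < x)
    (h : Real.log x ≤ a * (q * Real.log n) + c * Real.log n + d * Real.log y) :
    x ≤ Mo q n y a c d := by
  rw [← Real.exp_log hx]
  exact Real.exp_le_exp.2 h

lemma Mo_le_of {x a c d : ℝ} (hx : 0 < x)
    (h : a * (q * Real.log n) + c * Real.log n + d * Real.log y ≤ Real.log x) :
    Mo q n y a c d ≤ x := by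
  rw [← Real.exp_log hx]
  exact Real.exp_le_exp.2 h

lemma big_Mo {a c d a' c' d' : ℝ} (b16 : (1000 : ℝ) ≤ Mo q n y (1 / 100) 0 0)
    (h1 : (a + 1 / 100) * (q * Real.log n) + c * Real.log n +
      d * Real.log y ≤ a' * (q * Real.log n) + c' * Real.log n + d' * Real.log y) :
    1000 * Mo q n y a c d ≤ Mo q n y a' c' d' := by
  refine (mul_le_mul_of_nonneg_right b16 (Mo_pos _ _ _).le).trans ?_
  rw [Mo_mul]
  refine Mo_le ?_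
  linarith

/-- the distances -/
lemma du_core (h : W6 q K n y) {b η hh g p v : ℝ} (hb : 1 ≤ b)
    (hK0 : Real.log (1000 * b ^ 2) ≤ K)
    (hη0 : 0 ≤ η) (hη : η ≤ Mo q n y (-2000) 0 0)
    (hv0 : 0 ≤ v) (hv : v ≤ Mo q n y (-23) 0 3)
    (hhh0 : 0 ≤ hh) (hhh : hh ≤ Mo q n y 56 (-1 / 2) (-1))
    (hg0 : 0 ≤ g) (hg : g ≤ Mo q n y (-3800) 0 2)
    (hp0 : 0 ≤ p) (hp : p ≤ Mo q n y 0 (-1) 0) :
    125 * b ^ 2 * (Mo q n y 37 0 1 * (hh + g) ^ 2 + p ^ 2 + v * η ^ 2) ≤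
      Mo q n y (-3000) 0 3 := by
  have hbig := h.big
  obtain ⟨n0, y0, L1, qL, cst, lo, hi⟩ := h
  have bC : 1000 * b ^ 2 ≤ Mo q n y (1 / 100) 0 0 := const_le (by positivity) hK0 cst
  have U0 : 0 < Mo q n y 37 0 1 := Mo_pos _ _ _
  obtain ⟨τ, hτ⟩ : ∃ τ, τ = Mo q n y (-3001) 0 3 := ⟨_, rfl⟩
  have τ0 : 0 < τ := by rw [hτ]; exact Mo_pos _ _ _
  have s2 : Mo q n y 37 0 1 * hh ^ 2 ≤ τ := by
    refine (mul_le_mul_of_nonneg_left (pow_le_pow_left₀ hhh0 hhh 2) U0.le).trans ?_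
    rw [hτ]
    simp only [Mo_mul, Mo_pow]
    refine Mo_le ?_
    push_cast
    linarith
  have s3 : Mo q n y 37 0 1 * g ^ 2 ≤ τ := by
    refine (mul_le_mul_of_nonneg_left (pow_le_pow_left₀ hg0 hg 2) U0.le).trans ?_
    rw [hτ]
    simp only [Mo_mul, Mo_pow]
    refine Mo_le ?_
    push_cast
    linarith
  have m2 : p ^ 2 ≤ τ := by
    refine (pow_le_pow_left₀ hp0 hp 2).trans ?_
    rw [hτ]
    simp only [Mo_mul, Mo_pow]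
    refine Mo_le ?_
    push_cast
    linarith
  have m3 : v * η ^ 2 ≤ τ := by
    refine (mul_le_mul hv (pow_le_pow_left₀ hη0 hη 2) (sq_nonneg _) (Mo_pos _ _ _).le).trans ?_
    rw [hτ]
    simp only [Mo_mul, Mo_pow]
    refine Mo_le ?_
    push_cast
    linarith
  have m5 : 1000 * b ^ 2 * τ ≤ Mo q n y (-3000) 0 3 := by
    refine (mul_le_mul_of_nonneg_right bC τ0.le).trans ?_
    rw [hτ, Mo_mul]
    refine Mo_le ?_
    linarith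
  generalize Mo q n y 37 0 1 = U at *
  have m1 : U * (hh + g) ^ 2 ≤ 4 * τ := by
    have s1 : (hh + g) ^ 2 ≤ 2 * hh ^ 2 + 2 * g ^ 2 := by
      have := sq_nonneg (hh - g)
      linarith [show (hh + g) ^ 2 + (hh - g) ^ 2 = 2 * hh ^ 2 + 2 * g ^ 2 by ring]
    have s4 := mul_le_mul_of_nonneg_left s1 U0.le
    have e : U * (2 * hh ^ 2 + 2 * g ^ 2) = 2 * (U * hh ^ 2) + 2 * (U * g ^ 2) := by ring
    rw [e] at s4
    linarith
  have m4 : 125 * b ^ 2 * (U * (hh + g) ^ 2 + p ^ 2 + v * η ^ 2) ≤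
      125 * b ^ 2 * (6 * τ) := mul_le_mul_of_nonneg_left (by linarith) (by positivity)
  have m6 : 0 ≤ b ^ 2 * τ := by positivity
  have e7 : 125 * b ^ 2 * (6 * τ) = 750 * (b ^ 2 * τ) := by ring
  have e8 : 1000 * b ^ 2 * τ = 1000 * (b ^ 2 * τ) := by ring
  rw [e7] at m4
  rw [e8] at m5
  linarith

/-- the increments -/
lemma x3_core (h : W6 q K n y) {η j pR pC : ℝ} (b16 : (1000 : ℝ) ≤ Mo q n y (1 / 100) 0 0)
    (hη0 : 0 ≤ η) (hη1 : η ≤ 1 / 2)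
    (hj0 : 0 ≤ j) (hj : j ≤ Mo q n y 56 (-1 / 2) (-1))
    (hpR0 : 0 ≤ pR) (hpR : pR ≤ Mo q n y 0 (-2) 0) (hpC0 : 0 ≤ pC)
    (hpC : pC ≤ Mo q n y 0 (-2) 0) :
    4 * (1 + η) ^ 2 * Mo q n y 37 0 1 * (Mo q n y 37 0 1 * j ^ 2) +
      (4 * (1 + η) ^ 2) ^ 2 * (pC + pR) ≤ Mo q n y 190 (-1) 0 := by
  have hbig := h.big
  obtain ⟨n0, y0, L1, qL, cst, lo, hi⟩ := h
  have hη2 : (1 + η) ^ 2 ≤ 9 / 4 := by nlinarith
  have hη20 : 0 ≤ (1 + η) ^ 2 := sq_nonneg _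
  have h1 : Mo q n y 37 0 1 * (Mo q n y 37 0 1 * Mo q n y 56 (-1 / 2) (-1) ^ 2) ≤
      Mo q n y 186 (-1) 0 := by
    simp only [Mo_mul, Mo_pow]
    refine Mo_le ?_
    push_cast
    linarith
  have h3 : Mo q n y 0 (-2) 0 ≤ Mo q n y 186 (-1) 0 := Mo_le (by linarith)
  have h6 := big_Mo (a := 186) (c := -1) (d := 0) (a' := 190) (c' := -1) (d' := 0) b16 (by linarith)
  have h2 := pow_le_pow_left₀ hj0 hj 2
  have U0 : 0 < Mo q n y 37 0 1 := Mo_pos _ _ _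
  have Z0 : 0 < Mo q n y 186 (-1) 0 := Mo_pos _ _ _
  generalize Mo q n y 37 0 1 = U at *
  generalize Mo q n y 56 (-1 / 2) (-1) = J at *
  generalize Mo q n y 186 (-1) 0 = Z at *
  generalize Mo q n y 190 (-1) 0 = Z' at *
  have h7 : U * (U * j ^ 2) ≤ Z :=
    (mul_le_mul_of_nonneg_left (mul_le_mul_of_nonneg_left h2 U0.le) U0.le).trans h1
  have h4 : 4 * (1 + η) ^ 2 * U * (U * j ^ 2) ≤ 9 * Z := by
    have e : 4 * (1 + η) ^ 2 * U * (U * j ^ 2) = 4 * (1 + η) ^ 2 * (U * (U * j ^ 2)) := by ring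
    rw [e]
    exact mul_le_mul (by linarith) h7 (by positivity) (by norm_num)
  have h5 : (4 * (1 + η) ^ 2) ^ 2 * (pC + pR) ≤ 81 * (2 * Z) := by
    refine mul_le_mul ?_ (by linarith) (by linarith) (by norm_num)
    calc (4 * (1 + η) ^ 2) ^ 2 ≤ 9 ^ 2 := pow_le_pow_left₀ (by positivity) (by linarith) 2
      _ = 81 := by norm_num
  linarith

/-- the powers of the overlap -/
lemma q_core (h : W6 q K n y) {η pR pC k4 : ℝ} (b16 : (1000 : ℝ) ≤ Mo q n y (1 / 100) 0 0)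
    (hη0 : 0 ≤ η) (hη1 : η ≤ 1 / 2) (hk40 : 0 ≤ k4) (hk4 : k4 ≤ Mo q n y 148 0 4)
    (hpR0 : 0 ≤ pR) (hpR : pR ≤ Mo q n y 0 (-2) 0) (hpC0 : 0 ≤ pC)
    (hpC : pC ≤ Mo q n y 0 (-2) 0) :
    Mo q n y 37 0 1 ^ 2 + pC ≤ Mo q n y 75 0 2 ∧
      2 * (Mo q n y 37 0 1 ^ 4 + pC) + 8 * k4 ≤ Mo q n y (741 / 5) 0 4 ∧
      Mo q n y 37 0 1 ^ 3 + (1 + η) ^ 6 * pR ≤ Mo q n y (1111 / 10) 0 3 ∧
      Mo q n y 37 0 1 ^ 4 + (1 + η) ^ 8 * pR ≤ Mo q n y (741 / 5) 0 4 ∧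
      Mo q n y 37 0 1 ^ 5 + (1 + η) ^ 6 * (pC + pR) ≤ Mo q n y 186 0 5 := by
  have hbig := h.big
  obtain ⟨n0, y0, L1, qL, cst, lo, hi⟩ := h
  have hη6 : (1 + η) ^ 6 ≤ 12 := by
    calc (1 + η) ^ 6 ≤ (3 / 2) ^ 6 := pow_le_pow_left₀ (by linarith) (by linarith) 6
      _ ≤ 12 := by norm_num
  have hη8 : (1 + η) ^ 8 ≤ 26 := by
    calc (1 + η) ^ 8 ≤ (3 / 2) ^ 8 := pow_le_pow_left₀ (by linarith) (by linarith) 8
      _ ≤ 26 := by norm_num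
  have e2 : Mo q n y 37 0 1 ^ 2 = Mo q n y 74 0 2 := by
    rw [Mo_pow]; congr 1 <;> norm_num
  have e3 : Mo q n y 37 0 1 ^ 3 = Mo q n y 111 0 3 := by
    rw [Mo_pow]; congr 1 <;> norm_num
  have e4 : Mo q n y 37 0 1 ^ 4 = Mo q n y 148 0 4 := by
    rw [Mo_pow]; congr 1 <;> norm_num
  have e5 : Mo q n y 37 0 1 ^ 5 = Mo q n y 185 0 5 := by
    rw [Mo_pow]; congr 1 <;> norm_num
  have p2 : Mo q n y 0 (-2) 0 ≤ Mo q n y 74 0 2 := Mo_le (by linarith)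
  have p3 : Mo q n y 0 (-2) 0 ≤ Mo q n y 111 0 3 := Mo_le (by linarith)
  have p4 : Mo q n y 0 (-2) 0 ≤ Mo q n y 148 0 4 := Mo_le (by linarith)
  have p5 : Mo q n y 0 (-2) 0 ≤ Mo q n y 185 0 5 := Mo_le (by linarith)
  have r2 := big_Mo (a := 74) (c := 0) (d := 2) (a' := 75) (c' := 0) (d' := 2) b16 (by linarith)
  have r4 := big_Mo (a := 148) (c := 0) (d := 4) (a' := 741 / 5) (c' := 0) (d' := 4) b16
    (by linarith)
  have r3 := big_Mo (a := 111) (c := 0) (d := 3) (a' := 1111 / 10) (c' := 0) (d' := 3) b16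
    (by linarith)
  have r5 := big_Mo (a := 185) (c := 0) (d := 5) (a' := 186) (c' := 0) (d' := 5) b16 (by linarith)
  have q74 : 0 < Mo q n y 74 0 2 := Mo_pos _ _ _
  have q111 : 0 < Mo q n y 111 0 3 := Mo_pos _ _ _
  have q148 : 0 < Mo q n y 148 0 4 := Mo_pos _ _ _
  have q185 : 0 < Mo q n y 185 0 5 := Mo_pos _ _ _
  rw [e2, e3, e4, e5]
  have h3 : (1 + η) ^ 6 * pR ≤ 12 * Mo q n y 111 0 3 :=
    mul_le_mul hη6 (hpR.trans p3) hpR0 (by norm_num)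
  have h4 : (1 + η) ^ 8 * pR ≤ 26 * Mo q n y 148 0 4 :=
    mul_le_mul hη8 (hpR.trans p4) hpR0 (by norm_num)
  have h5 : (1 + η) ^ 6 * (pC + pR) ≤ 12 * (2 * Mo q n y 185 0 5) :=
    mul_le_mul hη6 (by linarith) (by linarith) (by norm_num)
  refine ⟨by linarith, by linarith, by linarith, by linarith, by linarith⟩

/-- **The third order number** on the window. -/
theorem rbc_core (h : W6 q K n y) {b η kp wf t hh g k j k4 v p pR pC x : ℝ} (hb : 1 ≤ b)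
    (hK : Real.log (Crb b) ≤ K) (hK0 : Real.log (1000 * b ^ 2) ≤ K)
    (hη0 : 0 ≤ η) (hη1 : η ≤ 1 / 2)
    (hη : η ≤ Mo q n y (-2000) 0 0) (hx0 : 0 ≤ x) (hx : x ≤ Mo q n y 0 0 1)
    (hkp0 : 0 ≤ kp) (hkp1 : kp ≤ 1) (hwf0 : 0 ≤ wf) (hv0 : 0 ≤ v) (hwfv : wf ≤ v)
    (hv : v ≤ Mo q n y (-23) 0 3) (ht1 : t ≤ 1) (ht : 1 - t ≤ Mo q n y (-60) 0 2)
    (hhh0 : 0 ≤ hh) (hhh : hh ≤ Mo q n y 56 (-1 / 2) (-1))
    (hg0 : 0 ≤ g) (hg : g ≤ Mo q n y (-3800) 0 2)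
    (hk0 : 0 ≤ k) (hk : k ≤ Mo q n y (-2926) 0 1)
    (hj0 : 0 ≤ j) (hj : j ≤ Mo q n y 56 (-1 / 2) (-1))
    (hk40 : 0 ≤ k4) (hk4 : k4 ≤ Mo q n y 148 0 4)
    (hp0 : 0 ≤ p) (hp : p ≤ Mo q n y 0 (-1) 0)
    (hpR0 : 0 ≤ pR) (hpR : pR ≤ Mo q n y 0 (-2) 0) (hpC0 : 0 ≤ pC)
    (hpC : pC ≤ Mo q n y 0 (-2) 0) :
    RBc b η x kp wf t (Mo q n y (-1483) 0 0) (Mo q n y (-2999) 0 (-1)) (Mo q n y (-2962) 0 0)
      (Mo q n y 37 0 1) hh g k j k4 v p pR pC ≤ Mo q n y (-1366) 0 3 := by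
  have bC : 1000 * b ^ 2 ≤ Mo q n y (1 / 100) 0 0 :=
    const_le (by have : 0 < b := by linarith
                 positivity) hK0 h.cst
  have b2 : 1 ≤ b ^ 2 := one_le_pow₀ hb
  have b16 : (1000 : ℝ) ≤ Mo q n y (1 / 100) 0 0 := by linarith
  obtain ⟨c1, c2, c3, c4, c5⟩ := q_core h b16 hη0 hη1 hk40 hk4 hpR0 hpR hpC0 hpC
  have c6 := x3_core h b16 hη0 hη1 hj0 hj hpR0 hpR hpC0 hpC
  have c7 := du_core h hb hK0 hη0 hη hv0 hv hhh0 hhh hg0 hg hp0 hp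
  have U0 : 0 < Mo q n y 37 0 1 := Mo_pos _ _ _
  have c8 : k ^ 2 ≤ Mo q n y (-5852) 0 2 := by
    refine (pow_le_pow_left₀ hk0 hk 2).trans ?_
    rw [Mo_pow]
    refine Mo_le ?_
    push_cast
    linarith
  have d1 : 0 ≤ Mo q n y 37 0 1 ^ 2 + pC := add_nonneg (sq_nonneg _) hpC0
  have d2 : 0 ≤ 4 * (1 + η) ^ 2 * Mo q n y 37 0 1 * (Mo q n y 37 0 1 * j ^ 2) +
      (4 * (1 + η) ^ 2) ^ 2 * (pC + pR) := by positivity
  have d3 : 0 ≤ 2 * (Mo q n y 37 0 1 ^ 4 + pC) + 8 * k4 := by positivity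
  have d4 : 0 ≤ Mo q n y 37 0 1 ^ 3 + (1 + η) ^ 6 * pR := by positivity
  have d5 : 0 ≤ Mo q n y 37 0 1 ^ 4 + (1 + η) ^ 8 * pR := by positivity
  have d6 : 0 ≤ Mo q n y 37 0 1 ^ 5 + (1 + η) ^ 6 * (pC + pR) := by positivity
  have d7 : 0 ≤ 125 * b ^ 2 * (Mo q n y 37 0 1 * (hh + g) ^ 2 + p ^ 2 + v * η ^ 2) := by
    positivity
  unfold RBc
  exact rb_core h hb hK hη0 hη1 hη hx0 hx hkp0 hkp1 hwf0 (hwfv.trans hv) ht1 ht
    (sq_nonneg k) c8 d1 c1 d2 c6 d3 c2 d4 c3 d5 c4 d6 c5 d7 c7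

end Vale.Agent.P146.H197.Br
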