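import Vale.Agent.P146.H197.BrKw
import Vale.Agent.P146.H197.BrKm

/-!
# P146: the numbers of the exclusion of the big root at a point of the window
-/

open MeasureTheory ProbabilityTheory Filter Set

namespace Vale.Agent.P146.H197.Br

open Vale.Agent.P157.Lv hiding Dep
open Vale.Agent.P146.H425 Vale.Agent.P146.H646
open Vale.Agent.P146.H325 hiding cb cf
open Vale.Agent.P146.H196 Vale.Agent.P146.H347 Vale.Agent.P146.H475 Vale.Agent.P146.H418
  Vale.Agent.P146.H412 Vale.Agent.P146.H320 Vale.Agent.P146.H529 Vale.Agent.P146.H470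
  Vale.Agent.P146.H516 Vale.Agent.P146.H615 Vale.Agent.P146.H694
open Vale.Agent.P146.H585.Num

set_option linter.all false

section kw

variable {a0 b₁ q A b : ℝ} {n : ℕ} {y V al s lam η : ℝ}

/-- the numbers of sites -/
lemma sites_kw (h : NW a0 b₁ q A b n y V al s lam η) :
    8 ≤ mm q n y ∧ 2 * (mm q n y / 2) ≤ n ∧ (mm q n y : ℝ) / 8 ≤ ((mm q n y / 4 : ℕ) : ℝ) ∧
      (mm q n y : ℝ) / 4 ≤ ((mm q n y / 2 : ℕ) : ℝ) - ((mm q n y / 4 : ℕ) : ℝ) + 1 := by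
  obtain ⟨f1, f2, f3, f4, f5, f6, f7, f8, f9, f10, f11, f12, f13, f14⟩ := h.facts
  obtain ⟨m1, m2, m3, m4⟩ := h.mm_facts
  have hn := h.env.n0
  have hy := h.env.y0
  have hL := h.env.L1
  have c8 := log_c 8 (by norm_num)
  have k1 : 8 ≤ (n : ℝ) ^ (1 - 110 * q) * y ^ 2 := by
    refine le_of_log (by positivity) (by positivity) ?_
    simp (disch := positivity) only [Real.log_mul, Real.log_rpow, Real.log_pow]
    push_cast
    linarith
  have k2 : 8 ≤ mm q n y := by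
    have : (8 : ℝ) ≤ mm q n y := k1.trans m1
    exact_mod_cast this
  have k3 : 4 * (mm q n y) ≤ n := by
    have : 4 * (mm q n y : ℝ) ≤ n := by linarith
    exact_mod_cast this
  have a1 : mm q n y ≤ 4 * (mm q n y / 4) + 3 := by omega
  have a2 : mm q n y ≤ 2 * (mm q n y / 2) + 1 := by omega
  have a3 : 4 * (mm q n y / 4) ≤ mm q n y := by omega
  have b1 : (mm q n y : ℝ) ≤ 4 * ((mm q n y / 4 : ℕ) : ℝ) + 3 := by exact_mod_cast a1
  have b2 : (mm q n y : ℝ) ≤ 2 * ((mm q n y / 2 : ℕ) : ℝ) + 1 := by exact_mod_cast a2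
  have b3 : 4 * ((mm q n y / 4 : ℕ) : ℝ) ≤ mm q n y := by exact_mod_cast a3
  have k4 : (8 : ℝ) ≤ mm q n y := by exact_mod_cast k2
  refine ⟨k2, by omega, by linarith, by linarith⟩

/-- `√X ≤ Mo` -/
lemma sqrt_le_Mo {X a c d : ℝ} (h : X ≤ Mo q n y (2 * a) (2 * c) (2 * d)) :
    √X ≤ Mo q n y a c d := by
  refine Real.sqrt_le_iff.2 ⟨(Mo_pos _ _ _).le, h.trans (le_of_eq ?_)⟩
  rw [Mo_pow]
  norm_num

/-- the increments of the number of the sites -/
lemma jN_kw (h : NW a0 b₁ q A b n y V al s lam η) :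
    jN (mm q n y / 4) (mm q n y / 2) ≤ Mo q n y 56 (-1 / 2) (-1) := by
  obtain ⟨f1, f2, f3, f4, f5, f6, f7, f8, f9, f10, f11, f12, f13, f14⟩ := h.facts
  obtain ⟨m1, m2, m3, m4⟩ := h.mm_facts
  obtain ⟨s1, s2, s3, s4⟩ := sites_kw h
  have hn := h.env.n0
  have hy := h.env.y0
  have c1 := log_c 56 (by norm_num)
  have p0 : 0 < (n : ℝ) ^ (1 - 110 * q) * y ^ 2 := by positivity
  unfold jN
  refine sqrt_le_Mo ?_
  have k1 : 14 / (((mm q n y / 2 : ℕ) : ℝ) - ((mm q n y / 4 : ℕ) : ℝ) + 1) ≤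
      56 / ((n : ℝ) ^ (1 - 110 * q) * y ^ 2) := by
    rw [div_le_div_iff₀ (by linarith) p0]
    linarith
  refine k1.trans (le_Mo (by positivity) ?_)
  simp (disch := positivity) only [Real.log_div, Real.log_mul, Real.log_rpow, Real.log_pow]
  push_cast
  linarith

/-- the number of the hidden sites -/
lemma hh_kw (h : NW a0 b₁ q A b n y V al s lam η) :
    1 / √((mm q n y / 4 : ℕ) : ℝ) ≤ Mo q n y 56 (-1 / 2) (-1) := by
  obtain ⟨f1, f2, f3, f4, f5, f6, f7, f8, f9, f10, f11, f12, f13, f14⟩ := h.facts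
  obtain ⟨m1, m2, m3, m4⟩ := h.mm_facts
  obtain ⟨s1, s2, s3, s4⟩ := sites_kw h
  have hn := h.env.n0
  have hy := h.env.y0
  have c1 := log_c 8 (by norm_num)
  have p0 : 0 < (n : ℝ) ^ (1 - 110 * q) * y ^ 2 := by positivity
  have e : 1 / √((mm q n y / 4 : ℕ) : ℝ) = √(1 / ((mm q n y / 4 : ℕ) : ℝ)) := by
    rw [one_div, one_div, Real.sqrt_inv]
  rw [e]
  refine sqrt_le_Mo ?_
  have k1 : 1 / ((mm q n y / 4 : ℕ) : ℝ) ≤ 8 / ((n : ℝ) ^ (1 - 110 * q) * y ^ 2) := by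
    rw [div_le_div_iff₀ (by linarith) p0]
    linarith
  refine k1.trans (le_Mo (by positivity) ?_)
  simp (disch := positivity) only [Real.log_div, Real.log_mul, Real.log_rpow, Real.log_pow]
  push_cast
  linarith

/-- the rank one number -/
lemma kN_kw (h : NW a0 b₁ q A b n y V al s lam η) :
    kN (lawOf n b y V al s lam η) (Mo q n y 37 0 1) (dl q n / 2) ≤ Mo q n y (-2926) 0 1 := by
  obtain ⟨f1, f2, f3, f4, f5, f6, f7, f8, f9, f10, f11, f12, f13, f14⟩ := h.facts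
  obtain ⟨hA, a1, a2⟩ := h.adm
  have hn := h.env.n0
  have hy := h.env.y0
  have hV := h.env.V0
  have c1 := log_c 14 (by norm_num)
  have c2 := log_c 2 (by norm_num)
  have d0 : 0 < dl q n := Real.rpow_pos_of_pos hn _
  have U0 : 0 < Mo q n y 37 0 1 := Mo_pos _ _ _
  have lU := log_Mo (q := q) (n := n) (y := y) 37 0 1
  have ld : Real.log (dl q n) = -(80 * q) * Real.log n := Real.log_rpow hn _
  unfold kN
  refine sqrt_le_Mo ?_
  have k1 : 14 * Mo q n y 37 0 1 / ((n : ℝ) * y ^ 2 * (V - s ^ 2) * (dl q n / 2)) ≤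
      14 * Mo q n y 37 0 1 / ((n : ℝ) * y ^ 2 * (V / 2) * (dl q n / 2)) := by
    gcongr
  refine (show 14 * Mo q n y 37 0 1 / ((n : ℝ) * y ^ 2 * (V - s ^ 2) * (dl q n / 2)) ≤ _ from
    k1.trans (le_Mo (by positivity) ?_))
  simp (disch := positivity) only [Real.log_div, Real.log_mul, Real.log_pow]
  rw [lU, ld]
  push_cast
  linarith

/-- the number of the pairs -/
lemma k4N_kw (h : NW a0 b₁ q A b n y V al s lam η) :
    C3Amp.k4N (lawOf n b y V al s lam η) (Mo q n y 37 0 1) ((n : ℝ) ^ (-(70 * q)) * y ^ 2 / 16) ≤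
      Mo q n y 148 0 4 := by
  obtain ⟨f1, f2, f3, f4, f5, f6, f7, f8, f9, f10, f11, f12, f13, f14⟩ := h.facts
  have hn := h.env.n0
  have hy := h.env.y0
  have hb := h.b0
  have c1 := log_c 14 (by norm_num)
  have c2 := log_c 16 (by norm_num)
  have U0 : 0 < Mo q n y 37 0 1 := Mo_pos _ _ _
  have lU := log_Mo (q := q) (n := n) (y := y) 37 0 1
  unfold C3Amp.k4N
  refine (show 14 * Mo q n y 37 0 1 ^ 2 / ((n : ℝ) * y ^ 2 * b ^ 2 *
    ((n : ℝ) ^ (-(70 * q)) * y ^ 2 / 16)) ≤ _ from le_Mo (by positivity) ?_)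
  simp (disch := positivity) only [Real.log_div, Real.log_mul, Real.log_rpow, Real.log_pow]
  rw [lU]
  push_cast
  linarith

/-- the other sizes -/
lemma size_kw (h : NW a0 b₁ q A b n y V al s lam η) :
    lam / (s ^ 2 * n) ≤ Mo q n y (-3800) 0 2 ∧ η ≤ Mo q n y (-2000) 0 0 ∧
      y ≤ Mo q n y 0 0 1 ∧ Mo q n y 0 0 1 ≤ y ∧ V - s ^ 2 ≤ Mo q n y (-23) 0 3 ∧
      (n : ℝ) ^ (-(70 * q)) * y ^ 2 / 4 ≤ Mo q n y (-60) 0 2 ∧
      (n : ℝ) ^ (-1 : ℝ) ≤ Mo q n y 0 (-1) 0 ∧ (n : ℝ) ^ (-2 : ℝ) ≤ Mo q n y 0 (-2) 0 ∧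
      (n : ℝ) ^ (-2 : ℝ) ≤ Mo q n y 0 (-1) 0 ∧
      Mo q n y (-71) 0 2 ≤ (n : ℝ) ^ (-(70 * q)) * y ^ 2 / 16 := by
  obtain ⟨f1, f2, f3, f4, f5, f6, f7, f8, f9, f10, f11, f12, f13, f14⟩ := h.facts
  have hn := h.env.n0
  have hy := h.env.y0
  have hV := h.env.V0
  have hL := h.env.L1
  have hs := h.kw.s0
  have hη := h.kw.η0
  have c1 := log_c 4 (by norm_num)
  have c2 := log_c 16 (by norm_num)
  have d4 : 0 ≤ Real.log 4 := Real.log_nonneg (by norm_num)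
  have hvV : V - s ^ 2 ≤ V := by
    have := sq_nonneg s
    linarith
  refine ⟨?_, ?_, ?_, ?_, hvV.trans ?_, ?_, ?_, ?_, ?_, ?_⟩
  · have g := h.kw.gg
    have e : Mo q n y (-3800) 0 2 = (n : ℝ) ^ (-(3800 * q)) * y ^ 2 := by
      rw [show (n : ℝ) ^ (-(3800 * q)) = Mo q n y (-3800) 0 0 by
        rw [← Mo_rpow hn]; congr 1; ring, Mo_ypow (q := q) (n := n) hy 2, Mo_mul]
      congr 1 <;> norm_num
    rw [div_le_iff₀ (by positivity), e]
    exact g
  · refine le_Mo hη ?_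
    linarith
  · exact (Mo_y hy).le
  · exact (Mo_y hy).ge
  · refine le_Mo hV ?_
    linarith
  · refine le_Mo (by positivity) ?_
    simp (disch := positivity) only [Real.log_div, Real.log_mul, Real.log_rpow, Real.log_pow]
    push_cast
    linarith
  · exact (Mo_rpow' (q := q) (y := y) hn (-1)).le
  · exact (Mo_rpow' (q := q) (y := y) hn (-2)).le
  · rw [Mo_rpow' (q := q) (y := y) hn (-2)]
    refine Mo_le ?_
    linarith
  · refine Mo_le_of (by positivity) ?_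
    simp (disch := positivity) only [Real.log_div, Real.log_mul, Real.log_rpow, Real.log_pow]
    push_cast
    linarith

/-- the tail of the second moment of the overlap -/
theorem tailC_kw (h : NW a0 b₁ q A b n y V al s lam η)
    (hap : ∀ T, 0 < T → T ≤ 1 → ∀ u ∈ Icc (0 : ℝ) 1, ApN q 2 (lawOf n b y V al s lam η) T u) :
    C3Amp.TailC (lawOf n b y V al s lam η) (1 - (n : ℝ) ^ (-(70 * q)) * y ^ 2 / 16)
      ((n : ℝ) ^ (37 * q) * y) ((n : ℝ) ^ (-2 : ℝ)) := by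
  have hn := h.env.n0
  have hy := h.env.y0
  obtain ⟨hA, a1, a2⟩ := h.adm
  intro S t u ht0 ht hu0 hu1
  obtain ⟨hT0, t1, t2⟩ := logT16 h (T := 1 - t) (by linarith) (by linarith)
  have g1 := hap (1 - t) hT0 (by linarith) u ⟨hu0, hu1⟩
  have g2 : 0 < Uq q n y (1 - t) := Uq_pos hn hy hT0
  have g3 := Uq_le4 h (T := 1 - t) (by linarith) (by linarith)
  have e : 1 - (1 - t) = t := by ring
  have g := g1.tC S
  rw [e] at g
  exact (H317.ex_ind_anti (wtL hA.lam0 hA.η0 t u) (bm_CC hA.lam0 hA.η0 S t u).meas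
    (pow_le_pow_left₀ g2.le (by linarith) 2)).trans g

end kw

end Vale.Agent.P146.H197.Br
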