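import Vale.Agent.P146.H694.K6d
import Vale.Agent.P146.H762.CoarseKW
import Vale.Agent.P146.H585.R3Num
import Vale.Agent.P146.H122.RowUp1K

/-!
# P146: the window of the data for the exclusion of the big root

* `nums_kw`: the numbers `Nums` of the fine points;
* `tau_kw`: the linear coefficient;
* `reg_kw`, `gap_kw`: the region and the gap.
-/

open MeasureTheory ProbabilityTheory Filter Set

namespace Vale.Agent.P146.H197.Br

open Vale.Agent.P157.Lv hiding Dep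
open Vale.Agent.P146.H425 Vale.Agent.P146.H646
open Vale.Agent.P146.H325 hiding cb cf
open Vale.Agent.P146.H196 Vale.Agent.P146.H347 Vale.Agent.P146.H475 Vale.Agent.P146.H418
  Vale.Agent.P146.H412 Vale.Agent.P146.H320 Vale.Agent.P146.H529 Vale.Agent.P146.H470
  Vale.Agent.P146.H516 Vale.Agent.P146.H615 Vale.Agent.P146.H694
open Vale.Agent.P146.H585.Num (W6)

set_option linter.all false

section kw

variable {a0 b₁ q A b : ℝ} {n : ℕ} {y V al s lam η : ℝ}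

lemma y_hi (h : NW a0 b₁ q A b n y V al s lam η) (hb₁ : 10000 * q ≤ b₁) :
    Real.log y ≤ -(9999 * (q * Real.log n)) := by
  have e := h.env
  have hL := e.L1
  have hq := e.qL
  have m2 : 10000 * q * Real.log n ≤ b₁ * Real.log n :=
    mul_le_mul_of_nonneg_right hb₁ (by linarith)
  have := e.yu
  linarith

lemma w6_of {K : ℝ} (h : NW a0 b₁ q A b n y V al s lam η) (hb₁ : 10000 * q ≤ b₁)
    (hK : K ≤ q / 100 * Real.log n) : W6 q K n y := by
  obtain ⟨f1, f2, f3, f4, f5, f6, f7, f8, f9, f10, f11, f12, f13, f14⟩ := h.facts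
  exact ⟨h.env.n0, h.env.y0, h.env.L1, h.env.qL, hK, by linarith, y_hi h hb₁⟩

/-- the window of `T` in logarithmic form -/
lemma logT16 (h : NW a0 b₁ q A b n y V al s lam η) {T : ℝ}
    (hT : (n : ℝ) ^ (-(70 * q)) * y ^ 2 / 16 ≤ T) (hT1 : T ≤ 1) :
    0 < T ∧ -(70 * q) * Real.log n + 2 * Real.log y - Real.log 16 ≤ Real.log T ∧
      Real.log T ≤ 0 := by
  have hn := h.env.n0
  have hy := h.env.y0
  have hT0 : 0 < T := lt_of_lt_of_le (by positivity) hT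
  have h1 := Real.log_le_log (by positivity) hT
  simp (disch := positivity) only [Real.log_mul, Real.log_rpow, Real.log_pow, Real.log_div] at h1
  push_cast at h1
  exact ⟨hT0, h1, Real.log_nonpos hT0.le hT1⟩

lemma Uq_le4 (h : NW a0 b₁ q A b n y V al s lam η) {T : ℝ}
    (hT : (n : ℝ) ^ (-(70 * q)) * y ^ 2 / 16 ≤ T) (hT1 : T ≤ 1) :
    4 * Uq q n y T ≤ (n : ℝ) ^ (37 * q) * y := by
  obtain ⟨f1, f2, f3, f4, f5, f6, f7, f8, f9, f10, f11, f12, f13, f14⟩ := h.facts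
  obtain ⟨hT0, t1, t2⟩ := logT16 h hT hT1
  have hn := h.env.n0
  have hy := h.env.y0
  have c1 := log_c 4 (by norm_num)
  have c2 := log_c 16 (by norm_num)
  unfold Uq
  refine le_of_log (by positivity) (by positivity) ?_
  simp (disch := positivity) only [Real.log_div, Real.log_mul, Real.log_rpow, Real.log_pow,
    Real.log_one, Real.log_sqrt]
  push_cast
  linarith

/-- **The numbers at the fine points.** -/
theorem nums_kw (h : NW a0 b₁ q A b n y V al s lam η)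
    (hap : ∀ T, 0 < T → T ≤ 1 → ∀ u ∈ Icc (0 : ℝ) 1, ApN q 2 (lawOf n b y V al s lam η) T u) :
    Nums (lawOf n b y V al s lam η) (1 - (n : ℝ) ^ (-(70 * q)) * y ^ 2 / 16)
      ((n : ℝ) ^ (37 * q) * y) ((n : ℝ) ^ (-1 : ℝ)) ((n : ℝ) ^ (-2 : ℝ)) := by
  have hn := h.env.n0
  have hy := h.env.y0
  obtain ⟨k1, k2, k3, k4, k5, k6, k7, k8⟩ := h.bd
  obtain ⟨hA, a1, a2⟩ := h.adm
  have key : ∀ t u : ℝ, 0 ≤ t → t ≤ 1 - (n : ℝ) ^ (-(70 * q)) * y ^ 2 / 16 → 0 ≤ u → u ≤ 1 →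
      ApN q 2 (lawOf n b y V al s lam η) (1 - t) u ∧ 0 < Uq q n y (1 - t) ∧
        4 * Uq q n y (1 - t) ≤ (n : ℝ) ^ (37 * q) * y := by
    intro t u ht0 ht hu0 hu1
    obtain ⟨hT0, t1, t2⟩ := logT16 h (T := 1 - t) (by linarith) (by linarith)
    exact ⟨hap (1 - t) hT0 (by linarith) u ⟨hu0, hu1⟩, Uq_pos hn hy hT0,
      Uq_le4 h (by linarith) (by linarith)⟩
  refine ⟨fun S t u ht0 ht hu0 hu1 => ?_, fun S t u ht0 ht hu0 hu1 => ?_,
    fun t u ht0 ht hu0 hu1 => ?_, fun S t u ht0 ht hu0 hu1 => ?_⟩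
  · obtain ⟨g1, g2, g3⟩ := key t u ht0 ht hu0 hu1
    have e : 1 - (1 - t) = t := by ring
    have g := g1.m2 S
    rw [e] at g
    have m := mom_Q hA.lam0 hA.η0 hA.n0 S t u 2
    have h8 : (1 + (lawOf n b y V al s lam η).η) ^ (4 * 2) ≤ 4 ^ 4 := by
      calc (1 + (lawOf n b y V al s lam η).η) ^ (4 * 2) ≤ 2 ^ (4 * 2) :=
            pow_le_pow_left₀ (by linarith [hA.η0])
              (by show 1 + η ≤ 2; linarith) _
        _ = 4 ^ 4 := by norm_num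
    calc (lawOf n b y V al s lam η).ex' t u (fun z => (lawOf n b y V al s lam η).Q S t u z ^ 4)
        ≤ (1 + (lawOf n b y V al s lam η).η) ^ (4 * 2) *
          (lawOf n b y V al s lam η).ex' t u (fun z => CC (lawOf n b y V al s lam η) S t u z ^ 2) := m
      _ ≤ 4 ^ 4 * Uq q n y (1 - t) ^ 4 := by
          refine mul_le_mul h8 g ?_ (by positivity)
          exact ex_nonneg (wtL hA.lam0 hA.η0 t u) fun z => sq_nonneg _
      _ = (4 * Uq q n y (1 - t)) ^ 4 := by ring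
      _ ≤ _ := pow_le_pow_left₀ (by positivity) g3 4
  · obtain ⟨g1, g2, g3⟩ := key t u ht0 ht hu0 hu1
    have e : 1 - (1 - t) = t := by ring
    have g := g1.m1 S
    rw [e] at g
    exact g.trans (pow_le_pow_left₀ g2.le (by linarith) 2)
  · obtain ⟨g1, g2, g3⟩ := key t u ht0 ht hu0 hu1
    have e : 1 - (1 - t) = t := by ring
    have g := g1.ps
    rw [e] at g
    refine g.trans (le_of_eq ?_)
    show (n : ℝ) ^ (-2 : ℝ) = ((n : ℝ) ^ (-1 : ℝ)) ^ 2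
    rw [← Real.rpow_natCast, ← Real.rpow_mul hn.le]
    norm_num
  · obtain ⟨g1, g2, g3⟩ := key t u ht0 ht hu0 hu1
    have e : 1 - (1 - t) = t := by ring
    have g := g1.tQ S
    rw [e] at g
    exact (H317.ex_ind_anti (wtL hA.lam0 hA.η0 t u) (bm_Q hA.lam0 hA.η0 S t u).meas
      (show Uq q n y (1 - t) ≤ (n : ℝ) ^ (37 * q) * y by linarith)).trans g

/-- the parameter of the slope -/
lemma kp_eq (h : NW a0 b₁ q A b n y V al s lam η) :
    (1 + al) / b = 1 - (1 - y) * rq b y al := by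
  obtain ⟨k1, k2, k3, k4, k5, k6, k7, k8⟩ := h.bd
  exact (rq_eq (by linarith)).symm

/-- the monomials of the linear coefficient -/
lemma tau_num (h : NW a0 b₁ q A b n y V al s lam η) :
    4 * ((n : ℝ) ^ (-(110 * q)) * y ^ 2) ≤ (n : ℝ) ^ (26 * q) * y ^ 2 / 4 ∧
      (n : ℝ) ^ (25 * q) * y ^ 2 ≤ (n : ℝ) ^ (26 * q) * y ^ 2 / 16 ∧
      (n : ℝ) ^ (-(70 * q)) * y ^ 2 / 4 ≤ (n : ℝ) ^ (26 * q) * y ^ 2 / 8 ∧
      2 * (A * ((n : ℝ) ^ (-(10 * q)) * y ^ 2)) ≤ (n : ℝ) ^ (-(99 / 10 * q)) * y ^ 2 / 2 ∧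
      ((n : ℝ) ^ (25 * q) * y ^ 2) ^ 2 ≤ (n : ℝ) ^ (-(99 / 10 * q)) * y ^ 2 / 2 ∧
      (n : ℝ) ^ (-(70 * q)) * y ^ 2 / 4 ≤ 1 := by
  obtain ⟨f1, f2, f3, f4, f5, f6, f7, f8, f9, f10, f11, f12, f13, f14⟩ := h.facts
  have hn := h.env.n0
  have hy := h.env.y0
  have hA0 : 0 < A := by linarith [h.A1]
  have c2 := log_c 2 (by norm_num)
  have c4 := log_c 4 (by norm_num)
  have c8 := log_c 8 (by norm_num)
  have c16 := log_c 16 (by norm_num)
  have d4 : 0 ≤ Real.log 4 := Real.log_nonneg (by norm_num)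
  refine ⟨?_, ?_, ?_, ?_, ?_, ?_⟩ <;>
  · refine le_of_log (by positivity) (by positivity) ?_
    simp (disch := positivity) only [Real.log_div, Real.log_mul, Real.log_rpow, Real.log_pow,
      Real.log_one]
    push_cast
    linarith

/-- the share of the hidden sites -/
lemma share_kw (h : NW a0 b₁ q A b n y V al s lam η) {m : ℕ} (hm : m ≤ mm q n y) :
    0 < (n : ℝ) - m ∧ 1 ≤ (n : ℝ) / (n - m) ∧
      (n : ℝ) / (n - m) ≤ 1 + 4 * ((n : ℝ) ^ (-(110 * q)) * y ^ 2) := by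
  obtain ⟨m1, m2, m3, m4⟩ := h.mm_facts
  have hn := h.env.n0
  have hy := h.env.y0
  have hmR : (m : ℝ) ≤ mm q n y := by exact_mod_cast hm
  have hm0 : (0 : ℝ) ≤ m := Nat.cast_nonneg _
  have hmn : (m : ℝ) ≤ n / 4 := by linarith
  have hnm : 0 < (n : ℝ) - m := by linarith
  refine ⟨hnm, ?_, ?_⟩
  · rw [le_div_iff₀ hnm]
    linarith
  · rw [div_le_iff₀ hnm]
    have e1 : (n : ℝ) ^ (1 - 110 * q) = n * (n : ℝ) ^ (-(110 * q)) := by
      rw [sub_eq_add_neg, Real.rpow_add hn, Real.rpow_one]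
    rw [e1] at m3
    obtain ⟨X, hX⟩ : ∃ X, X = (n : ℝ) ^ (-(110 * q)) * y ^ 2 := ⟨_, rfl⟩
    have hp : 0 ≤ X := by rw [hX]; positivity
    have h1 : (m : ℝ) ≤ 2 * (n * X) := by
      refine (hmR.trans m3).trans (le_of_eq ?_)
      rw [hX]
      ring
    rw [← hX]
    have h2 : (n : ℝ) / 2 * (4 * X) ≤ (n - m) * (4 * X) :=
      mul_le_mul_of_nonneg_right (by linarith) (by positivity)
    have h3 : (n : ℝ) / 2 * (4 * X) = 2 * (n * X) := by ring
    have h4 : (1 + 4 * X) * ((n : ℝ) - m) = (n - m) + (n - m) * (4 * X) := by ring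
    rw [h4]
    linarith

/-- algebra of the linear coefficient -/
lemma tau_alg {r al t d X Y Z W : ℝ} (d1 : 1 ≤ r) (d2 : r ≤ 1 + d) (ht0 : 0 ≤ t) (ht : 1 - X ≤ t)
    (ht1 : t ≤ 1) (hX0 : 0 ≤ X) (hal : |al| ≤ Y) (hal1 : |al| ≤ 1 / 1000) (h1 : d ≤ Z / 4)
    (h2 : Y ≤ Z / 16) (h3 : X ≤ Z / 8) (h4 : 2 * al ≤ W / 2) (h5 : Y ^ 2 ≤ W / 2) :
    |r - (1 + al) ^ 2 * t| ≤ Z ∧ -(r - (1 + al) ^ 2 * t) ≤ W := by
  have a1 := le_abs_self al
  have a2 := neg_abs_le al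
  have a3 := abs_nonneg al
  have hsq : al ^ 2 ≤ Y ^ 2 := by
    rw [← sq_abs]
    exact pow_le_pow_left₀ a3 hal 2
  have hs1 : al ^ 2 ≤ |al| := by
    rw [← sq_abs]
    nlinarith
  have q1 : (1 + al) ^ 2 * t ≤ (1 + al) ^ 2 := mul_le_of_le_one_right (sq_nonneg _) ht1
  have q0 : (1 + al) ^ 2 ≤ 2 := by nlinarith
  have q2 : (1 + al) ^ 2 * (1 - t) ≤ 2 * X :=
    mul_le_mul q0 (by linarith) (by linarith) (by norm_num)
  have e1 : (1 + al) ^ 2 = 1 + 2 * al + al ^ 2 := by ring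
  have e2 : (1 + al) ^ 2 * (1 - t) = (1 + al) ^ 2 - (1 + al) ^ 2 * t := by ring
  have s0 := sq_nonneg al
  refine ⟨abs_le.2 ⟨?_, ?_⟩, ?_⟩ <;> linarith

/-- **the linear coefficient** -/
theorem tau_kw (h : NW a0 b₁ q A b n y V al s lam η)
    (hal : al ≤ A * ((n : ℝ) ^ (-(10 * q)) * y ^ 2)) {m : ℕ} (hm : m ≤ mm q n y) {t : ℝ}
    (ht0 : 1 - (n : ℝ) ^ (-(70 * q)) * y ^ 2 / 4 ≤ t) (ht1 : t ≤ 1) :
    |tauL (lawOf n b y V al s lam η) ((1 + al) / b) m t| ≤ (n : ℝ) ^ (26 * q) * y ^ 2 ∧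
      -tauL (lawOf n b y V al s lam η) ((1 + al) / b) m t ≤
        (n : ℝ) ^ (-(99 / 10 * q)) * y ^ 2 := by
  have hb := h.b0
  have hn := h.env.n0
  have hy := h.env.y0
  have e : tauL (lawOf n b y V al s lam η) ((1 + al) / b) m t =
      (n : ℝ) / (n - m) - (1 + al) ^ 2 * t := by
    show (n : ℝ) / (n - m) - ((1 + al) / b) ^ 2 * b ^ 2 * t = _
    rw [div_pow, div_mul_cancel₀ _ (by positivity)]
  obtain ⟨d0, d1, d2⟩ := share_kw h hm
  obtain ⟨p1, p2, p3, p4, p5, p6⟩ := tau_num h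
  rw [e]
  exact tau_alg d1 d2 (by linarith) ht0 ht1 (by positivity) h.al_abs h.al_small p1 p2 p3
    (by linarith) p5

end kw

end Vale.Agent.P146.H197.Br
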