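import Vale.Agent.P146.H205.E2

/-!
# P146: the left side of the tested row equation, test functions of `r = |M| / √n`

As `H205.e2`, for a test function which is Lipschitz in the norm `r = √Q` (and not in `Q`):
the last error term carries the Lipschitz constant in `r`, without the crude factor of the
clipping.
-/

open MeasureTheory ProbabilityTheory

namespace Vale.Agent.P146.H197

open Vale.Agent.P157.Lv hiding Dep
open Vale.Agent.P146.H196 Vale.Agent.P146.H646 Vale.Agent.P146.H475 Vale.Agent.P146.H347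
  Vale.Agent.P146.H487 Vale.Agent.P146.H325 Vale.Agent.P146.H205

set_option linter.unusedSectionVars false

variable {n : ℕ} {LB LF : Type} [Fintype LB] [DecidableEq LB] [Fintype LF] [DecidableEq LF]
variable (b : ℝ) (cB : LB → ℝ) (cF : LF → ℝ) (s η : ℝ)

section

variable {lam : ℝ} (hl : 0 < lam) (hη : 0 ≤ η) (c x : ℝ)
include hl hη

variable {P0 Lr : ℝ} {G : ℝ → ℝ}

/-- **E2 in the norm**: the left side of the tested row equation, `G` Lipschitz in
`r = √Q`, on `r ≥ 0` only. -/
theorem e2r (hn : 0 < n) {S : Finset (Fin n)} (hS : S.Nonempty) {i0 : Fin n} (hi : i0 ∉ S)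
    (BL : Finset LB) (FL : Finset LF) (hG : Measurable G) (hP : ∀ r, 0 ≤ r → |G r| ≤ P0)
    (hL0 : 0 ≤ Lr) (hL : ∀ r r', 0 ≤ r → 0 ≤ r' → |G r - G r'| ≤ Lr * |r - r'|) :
    |ex (g1 (Co n LB LF)) (Wx n b cB cF s η lam c x)
        (fun z => G (√(H615.m2 S (fun j => cx (g1 _) (Kset S BL FL) (Wx n b cB cF s η lam c x)
          (Fa b cB cF s η lam c j)) z / n)) *
          cx (g1 _) (Kset (insert i0 S) BL FL) (Wx n b cB cF s η lam c x)
            (Fa b cB cF s η lam c i0) z ^ 2) -
      n / S.card * ex (g1 (Co n LB LF)) (Wx n b cB cF s η lam c x)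
        (fun z => G (√(H615.m2 S (fun j => cx (g1 _) (Kset S BL FL) (Wx n b cB cF s η lam c x)
          (Fa b cB cF s η lam c j)) z / n)) *
          (H615.m2 S (fun j => cx (g1 _) (Kset S BL FL) (Wx n b cB cF s η lam c x)
          (Fa b cB cF s η lam c j)) z / n))| ≤
    P0 * (∑ j ∈ S, (ex (g1 (Co n LB LF)) (Wx n b cB cF s η lam c x)
          (fun z => cx (g1 _) (Kset (insert i0 S) BL FL) (Wx n b cB cF s η lam c x)
            (Fa b cB cF s η lam c j) z ^ 2) -
        ex (g1 (Co n LB LF)) (Wx n b cB cF s η lam c x)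
          (fun z => cx (g1 _) (Kset S BL FL) (Wx n b cB cF s η lam c x)
            (Fa b cB cF s η lam c j) z ^ 2))) / S.card +
      2 * Lr / √n *
      (√((∑ j ∈ S, (ex (g1 (Co n LB LF)) (Wx n b cB cF s η lam c x)
          (fun z => cx (g1 _) (Kset (insert i0 S) BL FL) (Wx n b cB cF s η lam c x)
            (Fa b cB cF s η lam c j) z ^ 2) -
        ex (g1 (Co n LB LF)) (Wx n b cB cF s η lam c x)
          (fun z => cx (g1 _) (Kset S BL FL) (Wx n b cB cF s η lam c x)
            (Fa b cB cF s η lam c j) z ^ 2))) +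
          ex (g1 (Co n LB LF)) (Wx n b cB cF s η lam c x)
            (fun z => cx (g1 _) (Kset (insert i0 S) BL FL) (Wx n b cB cF s η lam c x)
              (Fa b cB cF s η lam c i0) z ^ 2)) *
        √(ex (g1 (Co n LB LF)) (Wx n b cB cF s η lam c x)
            (fun z => cx (g1 _) (Kset (insert i0 S) BL FL) (Wx n b cB cF s η lam c x)
              (Fa b cB cF s η lam c i0) z ^ 4))) := by
  set w := Wx (LB := LB) (LF := LF) n b cB cF s η lam c x with hwd
  set F : Fin n → (Co n LB LF → ℝ) → ℝ := Fa b cB cF s η lam c with hF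
  set K : Finset (Co n LB LF) := Kset S BL FL with hK
  set K' : Finset (Co n LB LF) := Kset (insert i0 S) BL FL with hK'
  have hw : Wt (g1 (Co n LB LF)) w := wtA b cB cF s hl hη c x
  have hFb : ∀ j, BM (F j) := bm_Fa b cB cF s η hl hη c
  have hKK : K ⊆ K' :=
    Kset_mono (Finset.subset_insert i0 S) (Finset.Subset.refl _) (Finset.Subset.refl _)
  have hn' : (0 : ℝ) < n := Nat.cast_pos.2 hn
  have hsn : 0 < √(n : ℝ) := Real.sqrt_pos.2 hn'
  have hSc : (0 : ℝ) < S.card := by exact_mod_cast hS.card_pos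
  -- the test function of the norm
  set cl : ℝ → ℝ := fun r => max r 0 / √n with hcl
  have cl0 : ∀ r, 0 ≤ cl r := fun r => div_nonneg (le_max_right _ _) hsn.le
  have cl1 : ∀ r r', |cl r - cl r'| ≤ |r - r'| / √n := fun r r' => by
    rw [hcl]
    simp only
    rw [← sub_div, abs_div, abs_of_pos hsn]
    refine div_le_div_of_nonneg_right ?_ hsn.le
    refine (abs_max_sub_max_le_max _ _ _ _).trans ?_
    rw [sub_self, abs_zero]
    exact max_le le_rfl (abs_nonneg _)
  set G' : (Unit → ℝ) → ℝ := fun v => G (cl (v ())) with hG'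
  have mcl : Measurable cl := (measurable_id.max measurable_const).div_const _
  have mG' : Measurable G' := hG.comp (mcl.comp (measurable_pi_apply ()))
  have hlip : ∀ v v' : Unit → ℝ, |G' v - G' v'| ≤ ∑ a, (Lr / √n) * |v a - v' a| := by
    intro v v'
    rw [Finset.univ_unique, Finset.sum_singleton]
    refine (hL _ _ (cl0 _) (cl0 _)).trans ?_
    have e4 := mul_le_mul_of_nonneg_left (cl1 (v ()) (v' ())) hL0
    refine e4.trans (le_of_eq ?_)
    show Lr * (|v () - v' ()| / √n) = Lr / √n * |v () - v' ()|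
    ring
  have hGn : ∀ z, G' (fun _ => nrm (g1 _) K w S F z) =
      G (√(H615.m2 S (fun j => cx (g1 _) K w (F j)) z / n)) := by
    intro z
    have h0 : 0 ≤ nrm (g1 _) K w S F z := Real.sqrt_nonneg _
    show G (cl (nrm (g1 _) K w S F z)) = _
    congr 1
    rw [hcl]
    simp only
    rw [max_eq_left h0, Real.sqrt_div' _ hn'.le]
    rfl
  have main := regk_lip (A := Unit) hw hKK hS (F := F) (fun j _ => hFb j) (hFb i0)
    (X := fun _ => nrm (g1 _) K w S F) (X' := fun _ => nrm (g1 _) K' w (insert i0 S) F)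
    (fun _ => bm_nrm hw K fun j _ => hFb j) (fun _ => bm_nrm hw K' fun j _ => hFb j)
    (fun _ => dep_nrm S F) (G := G') mG' (C := P0) (fun v => hP _ (cl0 _))
    (L := fun _ => Lr / √n) (fun _ => by positivity) hlip
    (fun j hj => ⟨acP (Equiv.swap i0 j),
      sy_P b cB cF s η hl hη c x (Equiv.swap i0 j) BL FL
        (swap_mem (iff_of_true (Finset.mem_insert_self _ _) (Finset.mem_insert_of_mem hj))),
      fun z => by
        have h1 := eq1_sp b cB cF s η hl c 1 (al η) (Equiv.swap i0 j) i0 z
        rw [Equiv.swap_apply_left] at h1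
        exact h1,
      fun _ z => by
        refine nrm_sy hw (sy_P b cB cF s η hl hη c x (Equiv.swap i0 j) BL FL
          (swap_mem (iff_of_true (Finset.mem_insert_self _ _) (Finset.mem_insert_of_mem hj))))
          (fun j _ => hFb j) (σ := Equiv.swap i0 j)
          (swap_mem (iff_of_true (Finset.mem_insert_self _ _) (Finset.mem_insert_of_mem hj)))
          (fun i _ z => ?_) z
        exact eq1_sp b cB cF s η hl c 1 (al η) (Equiv.swap i0 j) i z⟩)
  simp only [hGn] at main
  -- the average over `S`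
  have eS : (∑ j ∈ S, ex (g1 _) w (fun z =>
      G (√(H615.m2 S (fun j => cx (g1 _) K w (F j)) z / n)) *
      cx (g1 _) K w (F j) z ^ 2)) / S.card =
      n / S.card * ex (g1 _) w (fun z =>
        G (√(H615.m2 S (fun j => cx (g1 _) K w (F j)) z / n)) *
        (H615.m2 S (fun j => cx (g1 _) K w (F j)) z / n)) := by
    have bG : BM (fun z => G (√(H615.m2 S (fun j => cx (g1 _) K w (F j)) z / n))) := by
      refine ⟨hG.comp ?_, P0, fun z => hP _ (Real.sqrt_nonneg _)⟩
      refine Measurable.sqrt (Measurable.div_const ?_ _)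
      exact Finset.measurable_fun_sum _ fun j _ => (hw.bm_cx K (hFb j)).meas.pow_const 2
    have bq : ∀ j ∈ S, BM (fun z => G (√(H615.m2 S (fun j => cx (g1 _) K w (F j)) z / n)) *
        cx (g1 _) K w (F j) z ^ 2) := fun j _ => bG.mul (BM.sq' (hw.bm_cx K (hFb j)))
    rw [← ex_sum hw S bq, ← ex_const_mul (μ := g1 _) (w := w) ((n : ℝ) / S.card),
      div_eq_inv_mul, ← ex_const_mul (μ := g1 _) (w := w)]
    congr 1
    funext z
    rw [← Finset.mul_sum]
    unfold H615.m2
    field_simp
  rw [eS] at main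
  refine main.trans ?_
  have hst := nrm_step (ι := Fin n) hw hKK hi (F := F) (fun j _ => hFb j)
  have hA : 0 ≤ Lr / √n := by positivity
  simp only [Finset.univ_unique, Finset.sum_singleton]
  have h5 := Real.sqrt_le_sqrt hst
  have h6 := mul_le_mul_of_nonneg_left h5 hA
  have h7 := mul_le_mul_of_nonneg_right h6
    (Real.sqrt_nonneg (ex (g1 _) w fun z => cx (g1 _) K' w (F i0) z ^ 4))
  refine add_le_add le_rfl ?_
  refine (mul_le_mul_of_nonneg_left h7 (by norm_num : (0 : ℝ) ≤ 2)).trans (le_of_eq ?_)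
  ring

end

end Vale.Agent.P146.H197
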