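import Vale.Agent.P146.H317.Rho

/-!
# P146: the test function `phi` of the root equation as a function of `r = √Q`
-/

namespace Vale.Agent.P146.H197

open Vale.Agent.P146.H317

/-- **`r ↦ phi (r ^ 2)` is Lipschitz with constant `(1 + c ρ² / w) √(ρ / (c w))`** (of order
`y ^ (-3/2)` up to small powers, against `y ^ (-2)` for `phi` as a function of `Q`). -/
theorem phi_lip_r {c a w T r r' : ℝ} (hc : 0 < c) (hw : 0 < w) (hr : 0 ≤ r) (hr' : 0 ≤ r') :
    |phi c a w T (r ^ 2) - phi c a w T (r' ^ 2)| ≤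
      (1 + c * rho c a w T ^ 2 / w) * √(rho c a w T / (c * w)) * |r - r'| := by
  have hp := rho_pos (a := a) (T := T) hc hw
  obtain ⟨p, hpe⟩ : ∃ p, p = rho c a w T := ⟨_, rfl⟩
  unfold phi
  rw [← hpe] at hp ⊢
  obtain ⟨k, hk⟩ : ∃ k, k = w / p := ⟨_, rfl⟩
  have hk0 : 0 < k := by rw [hk]; positivity
  rw [← hk]
  have hd : 0 < c * r ^ 2 + k := by positivity
  have hd' : 0 < c * r' ^ 2 + k := by positivity
  have e1 : (r ^ 2 + p) / (c * r ^ 2 + k) - (r' ^ 2 + p) / (c * r' ^ 2 + k) =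
      (k - c * p) * ((r + r') * (r - r')) / ((c * r ^ 2 + k) * (c * r' ^ 2 + k)) := by
    field_simp
    ring
  have hs : √(p / (c * w)) = 1 / √(c * k) := by
    rw [hk, ← Real.sqrt_one, ← Real.sqrt_div zero_le_one]
    congr 1
    field_simp
  have hck : 0 < c * k := by positivity
  have hsq : 0 < √(c * k) := Real.sqrt_pos.2 hck
  have hss : √(c * k) ^ 2 = c * k := Real.sq_sqrt hck.le
  -- `r / (c r² + k) ≤ 1 / (2 √(c k))`
  have hone : ∀ t : ℝ, 0 ≤ t → t / (c * t ^ 2 + k) ≤ 1 / (2 * √(c * k)) := by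
    intro t ht
    rw [div_le_div_iff₀ (by positivity) (by positivity)]
    -- `2 t √(c k) ≤ c t² + k`
    have h1 : 0 ≤ (√(c * k) * t - k) ^ 2 / k := by positivity
    have h2 : (√(c * k) * t - k) ^ 2 / k = c * t ^ 2 - 2 * √(c * k) * t + k := by
      rw [sub_sq, mul_pow, hss]
      field_simp
    rw [h2] at h1
    linarith
  have hsum : (r + r') / ((c * r ^ 2 + k) * (c * r' ^ 2 + k)) ≤ 1 / (√(c * k) * k) := by
    have h1 : (r + r') / ((c * r ^ 2 + k) * (c * r' ^ 2 + k)) =
        r / (c * r ^ 2 + k) * (1 / (c * r' ^ 2 + k)) +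
          r' / (c * r' ^ 2 + k) * (1 / (c * r ^ 2 + k)) := by
      field_simp
    have h2 : 1 / (c * r' ^ 2 + k) ≤ 1 / k :=
      one_div_le_one_div_of_le hk0 (by nlinarith [mul_nonneg hc.le (sq_nonneg r')])
    have h3 : 1 / (c * r ^ 2 + k) ≤ 1 / k :=
      one_div_le_one_div_of_le hk0 (by nlinarith [mul_nonneg hc.le (sq_nonneg r)])
    have h4 := mul_le_mul (hone r hr) h2 (by positivity) (by positivity)
    have h5 := mul_le_mul (hone r' hr') h3 (by positivity) (by positivity)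
    rw [h1]
    refine (add_le_add h4 h5).trans (le_of_eq ?_)
    field_simp
    ring
  have hkp : |k - c * p| ≤ k * (1 + c * p ^ 2 / w) := by
    have h1 : k * (1 + c * p ^ 2 / w) = k + c * p := by
      rw [hk]
      field_simp
    rw [h1, abs_le]
    constructor <;> nlinarith [mul_pos hc hp]
  rw [e1, abs_div, abs_mul, abs_mul, abs_of_nonneg (add_nonneg hr hr'),
    abs_of_pos (mul_pos hd hd'), hs]
  calc |k - c * p| * ((r + r') * |r - r'|) / ((c * r ^ 2 + k) * (c * r' ^ 2 + k)) =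
      |k - c * p| * |r - r'| * ((r + r') / ((c * r ^ 2 + k) * (c * r' ^ 2 + k))) := by ring
    _ ≤ k * (1 + c * p ^ 2 / w) * |r - r'| * (1 / (√(c * k) * k)) := by
        refine mul_le_mul (mul_le_mul_of_nonneg_right hkp (abs_nonneg _)) hsum (by positivity)
          (by positivity)
    _ = _ := by
        field_simp

end Vale.Agent.P146.H197
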