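import Vale.Agent.P146.H122.S3a
import Vale.Agent.P146.H762.CoarseKW

/-!
# P146: the coarse half of the exclusion of the big root, eventually in the size and the unit

Port of `H762.coarse_facts`, `H762.coarse_kwB`.
-/

open MeasureTheory ProbabilityTheory Filter Topology Set

namespace Vale.Agent.P146.S3

open Vale.Agent.P146.H418 Vale.Agent.P146.H529 Vale.Agent.P146.H317
  Vale.Agent.P146.H320 Vale.Agent.P146.H620.Low Vale.Agent.P146.H762

set_option linter.all false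

/-- the facts of the window which the coarse step uses -/
theorem coarse_facts {a0 b₁ A b : ℝ} (hb : 0 < b) (hA : 1 ≤ A) (ha0 : a0 ≤ 1 / 6)
    (hb1 : 0 < b₁) :
    EV fun n q => ∀ y V al s lam η : ℝ, KW a0 b₁ q A b n y V al s lam η →
      LN q (Kc b + |Real.log (512 / b ^ 2)|) n y V ∧ η ≤ 1 / 2 ∧ 0 < V - s ^ 2 ∧
      ∀ t : ℝ, 0 ≤ t → t < 1 → ∀ u ∈ Icc (0 : ℝ) 1, ∀ (S : Finset (Fin n)) (p : ℕ),
      (lawOf n b y V al s lam η).ex' t u
        (fun z => H412.CC (lawOf n b y V al s lam η) S t u z ^ p) ≤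
      H412.Cp p * (4 * ((n : ℝ) ^ q * y ^ 4) / (b ^ 2 * (1 - t))) ^ p := by
  filter_upwards [env_ev (a0 := a0) (b₁ := b₁) (c := 24)
      (Kc b + |Real.log (512 / b ^ 2)|) hA,
    mom_ev1 (b := b) (e := 999) (s0 := 1 / 2) (s1 := 1) hb (by norm_num) (by norm_num)
      (by norm_num), ev_q0, ev_qlt (show 0 < b₁ / 100 by positivity)] with ⟨n, q⟩ g1 g2 hq hqb
  dsimp only at g1 g2 hq hqb ⊢
  have hb₁ : 100 * q < b₁ := by linarith
  have eq2 : (1 : ℝ) / 2 * q = q / 2 := by ring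
  rw [eq2, one_mul] at g2
  intro y V al s lam η h
  have e := g1 y V h.yl h.yu h.Vl h.Vu
  have l : LN q (Kc b + |Real.log (512 / b ^ 2)|) n y V := LN.of e ha0 hb₁.le
  have hn := l.n0
  have hy := l.y0
  have hV := l.V0
  have k0 := abs_nonneg (Real.log (512 / b ^ 2))
  have k5 := le_abs_self (Real.log (512 / b ^ 2))
  obtain ⟨k15, k8b, k1b, k8d, kC1, kC2, k9, kCb⟩ := Kc_le b
  have k2 : Real.log 2 ≤ Kc b := (Real.log_le_log (by norm_num) (by norm_num)).trans k15
  have hK0 : 0 ≤ Kc b := (Real.log_nonneg (by norm_num)).trans k2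
  have hy2 := y_half l (by linarith)
  have hlp := h.l0
  have hηp := h.η0
  have k3 : Real.log 3 ≤ Kc b := (Real.log_le_log (by norm_num) (by norm_num)).trans k15
  have hη3 : η ≤ 1 / 3 := by
    refine h.η1.trans (H470.le_of_log (Real.rpow_pos_of_pos hn _) (by norm_num) ?_)
    rw [Real.log_rpow hn, Real.log_div (by norm_num) (by norm_num), Real.log_one]
    linarith [l.cst, l.qL]
  have hη2 : η ≤ 1 / 2 := by linarith
  have hV1 : V ≤ 1 := by
    refine H470.le_of_log hV one_pos ?_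
    rw [Real.log_one]
    have := l.Vu
    have := l.hi
    have := l.qL
    linarith
  have hs2' : s ^ 2 ≤ V / 2 := by
    refine h.s2.trans ?_
    have : (n : ℝ) ^ (-(80 * q)) ≤ 1 / 2 := by
      refine H470.le_of_log (Real.rpow_pos_of_pos hn _) (by norm_num) ?_
      rw [Real.log_rpow hn, Real.log_div (by norm_num) (by norm_num), Real.log_one]
      linarith [l.cst, l.qL]
    have := mul_le_mul_of_nonneg_right this hV.le
    linarith
  have hvp : 0 < V - s ^ 2 := by linarith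
  have hnq : 1 ≤ (n : ℝ) ^ q := Real.one_le_rpow (by
    have := h.n1.le
    exact_mod_cast this) hq.le
  have hlη : 1 ≤ lam * η := by
    have a1 := hnq.trans h.ll
    have a2 : y * (lam * η) ≤ 1 * (lam * η) :=
      mul_le_mul_of_nonneg_right (by linarith) (by positivity)
    linarith
  have hl1 : 1 ≤ lam := by
    have : lam * η ≤ lam * 1 := mul_le_mul_of_nonneg_left (by linarith) hlp.le
    linarith
  have hy0' : (n : ℝ) ^ (-(1 / 6) + 999 * q) ≤ y := by
    refine H470.le_of_log (by positivity) hy ?_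
    rw [Real.log_rpow hn]
    have := l.lo
    linarith
  have hpar : H516.Par1 b (q / 2) (999 * q) n (V - s ^ 2) s lam η y V al :=
    ⟨hvp.le, by ring, hV1, h.s0, hl1, h.η0, hη3, hlη, hy0', by linarith, h.ap, h.sg⟩
  have hyb : y ^ 2 * b ^ 2 ≤ 4 := by
    have := yb_small hb (by linarith) l
    linarith
  have hmom := g2 (V - s ^ 2) s lam η y V al hpar hyb
  exact ⟨l, hη2, hvp, hmom⟩

/-- **The coarse half of K6**, `big` form, any power. -/
theorem coarse_kwB {a0 b₁ A b : ℝ} (hb : 0 < b) (hA : 1 ≤ A) (ha0 : a0 ≤ 1 / 6)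
    (hb1 : 0 < b₁) :
    EV fun n q => ∀ y V al s lam η : ℝ, KW a0 b₁ q A b n y V al s lam η →
      ∀ (T T' u u' θ : ℝ) (m m' : ℕ), (n : ℝ) ^ (-(70 * q)) * y ^ 2 / 8 ≤ T' → T' ≤ T → T ≤ 1 →
        m' ≤ m → 0 ≤ u → u ≤ u' → u' ≤ 1 →
        (lawOf n b y V al s lam η).ex' (1 - T') u'
          (big ((n : ℝ) ^ (-(8 * q)) * y / 2)
            ((lawOf n b y V al s lam η).Q (Sn n m') (1 - T') u')) ≤ (n : ℝ) ^ (-(θ * q)) →
        (lawOf n b y V al s lam η).ex' (1 - T) u
          (H317.ind ((n : ℝ) ^ (-(8 * q)) * y)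
            ((lawOf n b y V al s lam η).Q (Sn n m) (1 - T) u)) ≤
          (n : ℝ) ^ (-((θ / 2 - 45) * q)) := by
  filter_upwards [coarse_facts (A := A) hb hA ha0 hb1] with ⟨n, q⟩ g
  dsimp only at g ⊢
  intro y V al s lam η h T T' u u' θ m m' h1 h2 h3 h4 h5 h6 h7 h8
  obtain ⟨l, hη2, hvp, hmom⟩ := g y V al s lam η h
  obtain ⟨k1, k2, k3⟩ := Kc_more b
  exact coarse_numB l hb k1 k2 k3 h.l0 h.η0.le hη2 hvp hmom h1 h2 h3 h4 h5 h6 h7 h8

end Vale.Agent.P146.S3
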