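import Vale.Agent.P146.H122.S3b
import Vale.Agent.P146.H197.S3Co
import Vale.Agent.P146.H197.BrKf

/-!
# P146: exclusion of the big root, eventually in the size and the unit

`brnS`: port of `H197.Br.brnE`.
-/

open MeasureTheory ProbabilityTheory Filter Set

namespace Vale.Agent.P146.S3

open Vale.Agent.P157.Lv hiding Dep
open Vale.Agent.P146.H425 Vale.Agent.P146.H646
open Vale.Agent.P146.H325 hiding cb cf
open Vale.Agent.P146.H196 Vale.Agent.P146.H347 Vale.Agent.P146.H475 Vale.Agent.P146.H418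
  Vale.Agent.P146.H412 Vale.Agent.P146.H320 Vale.Agent.P146.H529
  Vale.Agent.P146.H516 Vale.Agent.P146.H615 Vale.Agent.P146.H694
open Vale.Agent.P146.H470 (mm dl le_of_log)
open Vale.Agent.P146.H197.Br

set_option linter.all false

/-- **The number of the big overlaps.** -/
theorem brnS {b₁ A b : ℝ} (hb : 1 < b) (hA : 1 ≤ A) (hb1 : 0 < b₁) : BRnS b₁ A b := by
  have hb0 : 0 < b := by linarith
  have hθ : (0 : ℝ) < 1 / 100 := by norm_num
  unfold BRnS
  filter_upwards [apn_ev (b₁ := b₁) (A := A) 2 hb0 hA hb1,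
    coarse_kwB (a0 := 1 / 6) (b₁ := b₁) (A := A) hb0 hA le_rfl hb1, ev_log hθ (Kb b),
    ev_log hθ |Real.log (b - 1)|, ev_q0, ev_qle (show 0 < b₁ / 10000 by positivity)] with ⟨n, q⟩
    g1 g2 g3 g4 hq hqb
  dsimp only at g1 g2 g3 g4 hq hqb ⊢
  have hb₁ : 10000 * q ≤ b₁ := by linarith
  intro y V al s lam η hkw hal T hT u hu m hm
  obtain ⟨h, hap⟩ := g1 y V al s lam η hkw
  obtain ⟨f1, f2, f3, f4, f5, f6, f7, f8, f9, f10, f11, f12, f13, f14⟩ := h.facts
  have hn := h.env.n0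
  have hy := h.env.y0
  have hA0 : 0 < A := by linarith
  have g3' : Kb b ≤ q / 100 * Real.log n := by linarith
  have d0 : 0 < dl q n := Real.rpow_pos_of_pos hn _
  have X0 : 0 < (n : ℝ) ^ (-(70 * q)) * y ^ 2 := by positivity
  have hal1 : al ≤ b - 1 := by
    refine hal.trans (le_of_log (by positivity) (by linarith) ?_)
    have := neg_abs_le (Real.log (b - 1))
    simp (disch := positivity) only [Real.log_mul, Real.log_rpow, Real.log_pow]
    push_cast
    linarith
  obtain ⟨hreg, hL⟩ := region_kw h hb hb₁ g3' hal1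
  obtain ⟨t, ht, u', hu', m', hm', hp⟩ := br_kw h hap hb hb₁ g3' hal1 hL (by positivity)
    (fun m hm t ht0 ht1 => (tau_kw h hal hm ht0 ht1).2) hreg
  obtain ⟨r1, r2, r3, r4⟩ := sites_kw h
  have hT1 : (n : ℝ) ^ (-(70 * q)) * y ^ 2 / 4 ≤ T := hT.1
  have hu1 : u ≤ 1 - dl q n := hu.2
  have hmm : mm q n y ≤ m + 1 := hm
  have hm2 := (Finset.mem_Icc.1 hm').2
  have e1 : (H585.Num.Mo q n y (-1040) 0 0) = (n : ℝ) ^ (-(1040 * q)) := by
    rw [← H585.Num.Mo_rpow hn]
    congr 1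
    ring
  rw [e1] at hp
  have key := g2 y V al s lam η hkw T (1 - t) u u' 1040 m m' (by linarith [ht.2])
    (by linarith [ht.1]) hT.2 (by omega) hu.1 (hu1.trans hu'.1) (by linarith [hu'.2])
  rw [show 1 - (1 - t) = t by ring] at key
  refine (key hp).trans ?_
  refine Real.rpow_le_rpow_of_exponent_le (by exact_mod_cast h.kw.n1.le) ?_
  linarith

end Vale.Agent.P146.S3
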